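import Vale.Agent.P057CR.RectD
import Vale.Agent.P057EN.Mb

/-!
One step of the chain: rectangles from the box inequality.
-/

set_option linter.all false

open Matrix Finset Real
open Vale.Agent.P267.H775 Vale.Agent.P057G Vale.Agent.P057MA Vale.Agent.P057PC
open Vale.Agent.P057TP hiding ind
open Vale.Agent.P057GH Vale.Agent.P057DP
open Vale.Agent.P057T1 (ind ind_pos ind_neg ind_nonneg ind_le abs_ind ind_mono)
open Vale.Agent.P057EN (Cq cq_iff fo_lt fo_mul)

namespace Vale.Agent.P057CR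

noncomputable section

theorem norm_un (w : ℂ) : ‖(starRingEnd ℂ) w / ‖w‖‖ ≤ 1 := by
  rw [norm_div, Complex.norm_conj, Complex.norm_real, norm_norm]; exact div_self_le_one _

theorem un_mul (w : ℂ) : (starRingEnd ℂ) w / ‖w‖ * w = (‖w‖ : ℝ) := by
  by_cases h : w = 0
  · simp [h]
  · have : ((‖w‖ : ℝ) : ℂ) ≠ 0 := by simpa using h
    rw [div_mul_eq_mul_div, div_eq_iff this, Complex.conj_mul', sq]

theorem bs_map {α β : Type} (o : Option Empty) (f : Empty → α) (g : α → β) :
    (o.map f).map g = none := by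
  cases o with
  | none => rfl
  | some u => exact u.elim

variable {C W E κ : Type} {T : Tow} {cl : W → C} {m s : ℕ} {N : ℝ} [Fintype W] [DecidableEq W]
  [Fintype E] [DecidableEq E] [Fintype κ] [DecidableEq κ] {Z : Sys T W Unit} (πE : E → W)

/-- the star system inside the system with extra vertices -/
def io : LK T cl m (Ov.one W) (κ × Bool) Unit → LK T cl m (px πE) (Option (κ × Bool)) Unit :=
  lf (O₁ := Ov.one W) (O₂ := px πE) (g := Sum.inr) (fun _ => rfl) some id

theorem io_inj : (io πE : LK T cl m (Ov.one W) (κ × Bool) Unit → _).Injective :=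
  lf_inj Sum.inr_injective (Option.some_injective _) Function.injective_id

variable (T cl m κ) in
/-- the fibre -/
def rr : Finset (LK T cl m (px πE) (Option (κ × Bool)) Unit) :=
  (b0 T cl m (Ov.one W) (κ × Bool) Unit fun _ => True)ᶜ.image (io πE)

theorem io_mem (l : LK T cl m (Ov.one W) (κ × Bool) Unit) :
    io πE l ∈ (b0 T cl m (px πE) _ Unit fun _ => True) ∪ rr κ T cl m πE := by
  by_cases a : l ∈ b0 T cl m (Ov.one W) (κ × Bool) Unit fun _ => True
  · exact mem_union_left _ (lf_b0 (fun _ _ => trivial) a)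
  · exact mem_union_right _ (mem_image_of_mem _ (mem_compl.2 a))

theorem cq_rr : Cq ((b0 T cl m (px πE) _ Unit fun _ => True) ∪ rr κ T cl m πE) := by
  intro l hl l' h1 h2
  rcases mem_union.1 hl with a | a
  · exact mem_union_left _ (cq_b0 _ l a l' h1 h2)
  · obtain ⟨l₁, -, rfl⟩ := mem_image.1 (cq_image Sum.inr_injective (Option.some_injective _)
      Function.injective_id (q := univ) (fun _ _ _ _ _ => mem_univ _) l
      (image_subset_image (subset_univ _) a) l' h1 h2)
    exact io_mem πE l₁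

theorem dis_rr : Disjoint (b0 T cl m (px πE) _ Unit fun _ => True) (rr κ T cl m πE) := by
  refine disjoint_right.2 fun l a b => ?_
  obtain ⟨l₀, c, rfl⟩ := mem_image.1 a
  exact mem_compl.1 c (mem_b0.2 ⟨kp_lf.1 (mem_b0.1 b).1, fun _ _ => trivial⟩)

variable (x : Sx T cl m κ)

open Classical in
/-- the scalars -/
def aa (σ : E ⊕ W → ℝ) (F : Finset ((E ⊕ W) ⊕ Option (κ × Bool))) (o : Option Unit) : ℝ :=
  if Kp F o then sc σ F else x.a (univ.filter fun v => Sum.map Sum.inr some v ∈ F) o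

/-- the centres -/
def cc : LK T cl m (px πE) (Option (κ × Bool)) Unit → ℝ := Function.extend (io πE) x.c 0

open Classical in
/-- the product over the cells with the property `p` -/
def pp (p : Finset W → Prop) (z : LK T cl m (px πE) (Option (κ × Bool)) Unit → ℤ) : ℂ :=
  ∏ j : κ × Bool, ∏ c ∈ x.Ce.filter p,
    (x.g j.1 c (pt (z ∘ io πE) (some ()) (insert (Sum.inr j) (c.image fun v => Sum.inl v))) : ℂ)

variable {x} {am : ℝ} {σE : E → ℝ}

theorem cc_b0 (h : x.Ok am) : ∀ l ∈ b0 T cl m (px πE) _ Unit fun _ => True, cc πE x l = 0 := by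
  intro l hl
  by_cases a : ∃ k, io πE k = l
  · obtain ⟨k, rfl⟩ := a
    rw [cc, (io_inj πE).extend_apply]
    exact h.c0 k (kp_lf.1 (mem_b0.1 hl).1)
  · rw [cc, Function.extend_apply' _ _ _ a]; rfl

theorem emb_io (h : x.Ok am) : Emb ((Ov.one W).ms cl m Z (κ × Bool) Unit x.a x.c)
    ((px πE).ms cl m Z _ Unit (aa x (Sum.elim σE fun _ => 1)) (cc πE x)) (io πE) univ := by
  refine emb_lf Sum.inr_injective (Option.some_injective _) Function.injective_id (fun _ => rfl)
    (fun l _ => ?_) fun l _ => (io_inj πE).extend_apply _ _ l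
  unfold aa
  split_ifs with a
  · rw [h.kp _ _ (kp_lf.1 (show Kp (io πE l).fc (io πE l).bs from a)),
      sc_image (σ₁ := fun _ => 1) Sum.inr_injective (Option.some_injective _) fun _ _ => rfl]
    exact prod_eq_one fun v _ => by cases v <;> rfl
  · rw [Option.map_id, id]
    congr 1
    ext v
    rw [mem_filter, (Sum.inr_injective.sumMap (Option.some_injective _)).mem_finset_image]
    exact and_iff_right (mem_univ _)

theorem emb_e0 (h : x.Ok am) (σ : E ⊕ W → ℝ) : Emb (tst cl m Z (px πE) σ 1)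
    ((px πE).ms cl m Z _ Unit (aa x σ) (cc πE x)) (lt (g := id) (fun _ => rfl) none)
    (b0 T cl m (px πE) Unit Empty fun _ => True) := by
  refine emb_lf Function.injective_id (fun _ _ _ => rfl) (fun u => u.elim) (fun _ => rfl)
    (fun l hl => ?_) fun l hl => cc_b0 πE h _ (lf_b0 (fun _ _ => trivial) hl)
  have a := (mem_b0.1 hl).1
  rw [if_neg (a.2 ())]
  exact (if_pos ((kp_lf (O₂ := px πE) (g := id) (h := fun _ => rfl)
    (k := fun _ : Unit => (none : Option (κ × Bool))) (t := (Empty.elim : Empty → Unit))).2 a)).trans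
    (sc_image Function.injective_id (fun _ _ _ => rfl) fun _ _ => rfl)

theorem norm_pp (h : x.Ok am) (p : Finset W → Prop) (z) : ‖pp πE x p z‖ ≤ 1 := by
  rw [pp, norm_prod]
  refine prod_le_one (fun _ _ => norm_nonneg _) fun j _ => ?_
  rw [norm_prod]
  refine prod_le_one (fun _ _ => norm_nonneg _) fun c _ => ?_
  rw [Complex.norm_real]; exact h.g1 _ _ _

theorem dp_pp {p : Finset W → Prop} {D : E ⊕ W → Prop}
    (hD : ∀ c ∈ x.Ce, p c → ∀ v ∈ c, ¬ D (Sum.inr v)) :
    Dp (aw D ((b0 T cl m (px πE) _ Unit fun _ => True) ∪ rr κ T cl m πE)) (pp πE x p) := by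
  classical
  intro z z' hz
  refine prod_congr rfl fun j _ => prod_congr rfl fun c hc => ?_
  rw [mem_filter] at hc
  congr 2
  funext a
  refine pt_congr fun l _ k _ => hz _ ?_
  simp only [aw, mem_filter]
  refine ⟨io_mem πE l, fun u hu => ?_⟩
  obtain ⟨v, hv, rfl⟩ := inl_lf.1 hu
  exact hD c hc.1 hc.2 v (by simpa using k hv)

theorem fs_eq (p : Finset W → Prop) (z : LK T cl m (px πE) (Option (κ × Bool)) Unit → ℤ) :
    Fs x.Ce x.g x.θ (ι := id) (fun _ => rfl) id () (z ∘ io πE) =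
      pp πE x p z * (pp πE x (fun c => ¬ p c) z * ee (∑ k : κ × Bool,
        (if k.2 then 1 else -1) * x.θ k.1 ((toR z ∘ lt (g := id) (fun _ => rfl) (some k)) ∘ ri πE))) := by
  classical
  rw [← mul_assoc, pp, pp, ← prod_mul_distrib]
  refine congrArg₂ (· * ·) (prod_congr rfl fun j _ => ?_) (congrArg ee (sum_congr rfl fun k _ => ?_))
  · convert (prod_filter_mul_prod_filter_not _ p _).symm <;> rfl
  · congr 2
    funext l
    exact congrArg (toR z) (lb_ext rfl ((image_image.trans (by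
      rw [Sum.map_comp_map, Sum.map_comp_map]; rfl)).trans image_image.symm) ((bs_map l.bs _ _).trans (bs_map l.bs _ _).symm))

/-- the box inequality on the star system with passengers -/
theorem star (hB : BOX) {n : ℕ} {L η ω ρ β η₁ : ℝ} {b : C} {l : W} (hl : cl l = b)
    {U : (LT T cl m (px πE) → ℤ) → Prop} (hE : Env s N m Z n L η)
    (hn : 2 * (Fintype.card E + Fintype.card W + 2 * Fintype.card κ + 2) ≤ n)
    (hσ : Sb s L (Sum.elim σE fun _ : W => 1)) (h : x.Ok am) (h1 : 8 * am ≤ L) (hω : 0 < ω)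
    (hρ : 0 ≤ ρ) (h2 : 8 * am ≤ ρ ^ 2 * ω) (hβ : 0 < β) (h3 : 0 ≤ η₁)
    (dU : Dp (b0 T cl m (px πE) Unit Empty fun _ => True) U)
    (hU : ∀ z, U z → x.Pop Z η₁ (z ∘ ri πE)) :
    (η₁ * dn cl m Z (px πE) (Sum.elim σE fun _ => 1) (fun _ => True) U) ^ 4 ≤ 16 * β +
      16 * dn cl m Z (px πE).dbl ((Sum.elim σE fun _ => 1) ∘ Prod.fst)
      (P2 (fun _ => True) fun v => DA l v ∨ DB cl b l v) (fun z =>
        (∀ i j, U (z ∘ lt (g := cn (DA l) (DB cl b l) i j) (fun _ => rfl) ())) ∧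
        ∀ a, NR cl m Z (px πE).dbl ω (P2 (fun _ => True) fun v => DA l v ∨ DB cl b l v)
          (al4 (DA l) (DB cl b l) fun u => x.θ a (u ∘ ri πE)) (ρ * √(log (2 / β))) (toR z)) +
      120 * √η := by
  classical
  have σ0 : ∀ v, 0 < (Sum.elim σE fun _ : W => (1 : ℝ)) v := fun v => one_pos.trans_le (hσ v).1
  set σ : E ⊕ W → ℝ := Sum.elim σE fun _ => 1
  have a0 : ∀ F o, 0 < aa x σ F o := fun F o => by
    unfold aa; split_ifs; exacts [sc_pos σ0 F, (h.bd _ _).1]
  have lo := lo_ms (O := px πE) (cl := cl) (m := m) hE.ok hE.zok a0 (cc πE x)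
  set S1 := (px πE).ms cl m Z _ Unit (aa x σ) (cc πE x)
  let p : Finset W → Prop := fun c => ∀ v ∈ c, ¬ DB (E := E) cl b l (Sum.inr v)
  let F1 := fun z : LK T cl m (px πE) (Option (κ × Bool)) Unit → ℤ =>
    Fs x.Ce x.g x.θ (ι := id) (fun _ => rfl) id () (z ∘ io πE)
  let H := Fb S1 (rr κ T cl m πE) F1
  let V := fun z : LK T cl m (px πE) (Option (κ × Bool)) Unit → ℤ =>
    U (z ∘ lt (g := id) (fun _ => rfl) none)
  have n1 : ∀ z, ‖F1 z‖ ≤ 1 := fun z => by
    simp only [F1, fs_eq πE p, norm_mul, norm_ee, mul_one]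
    exact mul_le_one₀ (norm_pp πE h _ _) (norm_nonneg _) (norm_pp πE h _ _)
  have c0 := (dc_ms (Z := Z) (a := aa x σ) (c := cc πE x) (cq_b0 fun _ => True)).cl lo
  have c1 := (dc_ms (Z := Z) (a := aa x σ) (c := cc πE x) (cq_rr πE)).cl lo
  have dH : Dp (b0 T cl m (px πE) _ Unit fun _ => True) H :=
    dp_Fb c1 fun z z' hz => congrArg (Fs x.Ce x.g x.θ (ι := id) (fun _ => rfl) id ())
      (funext fun l => hz _ (io_mem πE l))
  have dV : Dp (b0 T cl m (px πE) _ Unit fun _ => True) V :=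
    dU.comp fun l hl => lf_b0 (fun _ _ => trivial) hl
  have dΦ := dV.map₂ dH fun u w => (ind u : ℂ) * ((starRingEnd ℂ) w / ‖w‖)
  have nΦ : ∀ z, ‖(ind (V z) : ℂ) * ((starRingEnd ℂ) (H z) / ‖H z‖)‖ ≤ ind (V z) := fun z => by
    rw [norm_mul, Complex.norm_real, Real.norm_of_nonneg (ind_nonneg _)]
    exact mul_le_of_le_one_right (ind_nonneg _) (norm_un _)
  have key := hB T s N C W (E ⊕ W) (Option (κ × Bool)) Unit (κ × Bool) Z cl m (px πE) σ
    (fun _ => True) (DA l) (DB cl b l) b n L η am ω ρ β (aa x σ) (cc πE x) _ none some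
    (fun _ v => ∃ w, Sum.inr w = v) (fun k u => (if k.2 then 1 else -1) * x.θ k.1 (u ∘ ri πE)) U
    (pp πE x p) (pp πE x fun c => ¬ p c) _ hE (by simpa using by omega) hσ
    (fun F o a => if_pos a) (fun F o a => by rw [aa, if_neg a]; exact h.bd _ _) (cc_b0 πE h) h1 hω
    hρ h2 hβ (cq_rr πE) subset_union_left (fun _ _ _ _ => trivial)
    (by rintro _ rfl ⟨v, e, -, k⟩; exact k (Sum.inr_injective e).symm)
    (by rintro _ (rfl | ⟨v, rfl, k, -⟩); exacts [hl, k]) (Option.some_injective _)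
    (fun k => fo_mul _ (fo_lt _ (fun v _ => ⟨v, rfl⟩) (h.fo k.1))) (fun _ _ _ => trivial)
    (fun k l₁ h₁ => by
      obtain ⟨l₀, e⟩ := lf_range (O₁ := Ov.one W) (O₂ := px πE) (g := Sum.inr) (k := some)
        (t := (id : Unit → Unit)) (fun _ => rfl) Sum.inr_injective (Option.some_injective _)
        (l := lt (g := id) (fun _ => rfl) (some k) l₁) (fun v a => by
          obtain ⟨u, c, rfl⟩ := inl_lf.1 a
          exact (mem_st.1 h₁).2 u c) (fun v a => by
          obtain ⟨u, -, rfl⟩ := inr_lf.1 a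
          exact ⟨k, rfl⟩) fun u _ => ⟨u, rfl⟩
      exact e ▸ io_mem πE l₀)
    (norm_pp πE h _) (norm_pp πE h _) (dp_pp πE fun c _ a => a)
    (dp_pp πE fun c hc a v hv e => a fun w hw => by
      rintro ⟨u, e', k1, k2⟩
      obtain rfl := Sum.inr_injective e
      obtain rfl := Sum.inr_injective e'
      exact k2 (h.ce c hc hw hv (k1.trans hl.symm))) nΦ dΦ dU
  refine le_trans (pow_le_pow_left₀ (mul_nonneg h3 dn_nonneg) ?_ 4) (key.trans ?_)
  · have e1 : ∀ z, pp πE x p z * (pp πE x (fun c => ¬ p c) z * ((ind (V z) : ℂ) *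
        ((starRingEnd ℂ) (H z) / ‖H z‖) * ee (∑ k : κ × Bool, (if k.2 then 1 else -1) *
          x.θ k.1 ((toR z ∘ lt (g := id) (fun _ => rfl) (some k)) ∘ ri πE)))) =
        (ind (V z) : ℂ) * ((starRingEnd ℂ) (H z) / ‖H z‖) * F1 z := fun z => by
      simp only [F1, fs_eq πE p]; ring
    obtain ⟨B, hb⟩ := lo.toTr.Fb_bdd (rr κ T cl m πE) n1
    simp only [e1]
    rw [Ev_split lo.toTr c0 (sat_of_union lo.pd.1 c0.sat c1.sat (dis_rr πE)) (dis_rr πE) (C := 1)
      fun z => by
        rw [norm_mul]; exact mul_le_one₀ ((nΦ z).trans (ind_le _)) (norm_nonneg _) (n1 z),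
      funext (Fb_mul (dis_rr πE) F1 dΦ)]
    simp only [mul_assoc, show ∀ z, Fb S1 (rr κ T cl m πE) F1 z = H z from fun _ => rfl, un_mul,
      ← Complex.ofReal_mul]
    rw [Ev_Er, Complex.norm_real, dn, ← (emb_e0 πE h σ).er, b0_image Function.injective_id
      (fun _ _ _ => rfl) (P₂ := fun _ => True) (fun v => by simp), ← Er_mul]
    refine (lo.toTr.Er_le ((bd_const _).mul (bd_ind _)) ((bd_ind _).mul (bd_norm hb))
      fun z _ => ?_).trans (le_abs_self _)
    by_cases a : V z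
    · rw [ind_pos a, mul_one, one_mul]
      refine (hU _ a (z ∘ io πE) (funext fun l => congrArg z ?_)).trans (le_of_eq ?_)
      · refine lb_ext rfl ?_ ((bs_map l.bs _ _).trans (bs_map (ri πE (bz _ _ _ l)).bs _ id).symm |>.trans
          Option.map_id_apply)
        refine (image_image.trans ?_).trans
          ((congrArg _ image_image).trans image_image).symm
        simp only [Sum.map_comp_map]
        congr 2
        exact funext fun u => u.elim
      · exact congrArg _ (((emb_io πE h).mono (subset_univ _)).fb _ z).symm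
    · rw [ind_neg a, mul_zero, zero_mul]
  · refine add_le_add (add_le_add le_rfl (mul_le_mul_of_nonneg_left (dn_mono hE.ok hE.zok
      (fun v => σ0 v.1) fun z a => ⟨a.1, fun k => ?_⟩) (by norm_num))) le_rfl
    simpa only [if_true, one_mul] using a.2 (k, true)

theorem num_B {s : ℕ} {y A : ℝ} (hy : ((s + 4 : ℕ) : ℝ) ≤ y) (hA : y ≤ A) :
    4 ≤ y ∧ (s : ℝ) ≤ y ∧ 16 * A ^ 2 ≤ A ^ (s + 4) ∧ 64 * y ≤ y ^ (s + 4) := by
  push_cast at hy
  have s0 : (0 : ℝ) ≤ s := Nat.cast_nonneg _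
  have key : ∀ u : ℝ, 4 ≤ u → 16 * u ^ 2 ≤ u ^ (s + 4) := fun u hu => by
    have h1 : 1 ≤ u ^ s := one_le_pow₀ (by linarith)
    have h2 : 16 ≤ u ^ 2 := by nlinarith
    rw [show u ^ (s + 4) = u ^ s * (u ^ 2 * u ^ 2) by ring]
    nlinarith [mul_le_mul_of_nonneg_right h2 (sq_nonneg u)]
  refine ⟨by linarith, by linarith, key A (by linarith), le_trans ?_ (key y (by linarith))⟩
  nlinarith

theorem mul_exp {a u v : ℝ} (h : u + (a - 1) ≤ v) : a * exp u ≤ exp v := by
  refine le_trans ?_ (exp_le_exp.2 h)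
  rw [exp_add, mul_comm]
  exact mul_le_mul_of_nonneg_left (by linarith [add_one_le_exp (a - 1)]) (exp_pos _).le

theorem env_of {c : ℕ} {y A : ℝ} (h : En s N c m Z y A) (hB : 256 ≤ A ^ c) :
    Env s N m Z ⌊A ^ c⌋₊ (exp (A ^ c / 2)) (exp (-A ^ c)) := by
  obtain ⟨d, h1, h2⟩ := h.lf
  have e := add_one_le_exp (A ^ c / 4)
  have e2 : exp (A ^ c / 2) = exp (A ^ c / 4) ^ 2 := by rw [← exp_nat_mul]; congr 1; push_cast; ring
  have e3 : 4 * A ^ c + 4 ≤ exp (A ^ c / 2) := by rw [e2]; nlinarith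
  refine ⟨h.ok, h.zok, ⟨d, _, h1, h2, ?_⟩, by linarith, (exp_pos _).le,
    exp_le_one_iff.2 (by linarith)⟩
  rw [show exp (A ^ c) = exp (A ^ c / 2) * exp (A ^ c / 2) by rw [← exp_add, add_halves]]
  exact mul_le_mul_of_nonneg_right (by linarith [Nat.floor_le (show 0 ≤ A ^ c by linarith)])
    (exp_pos _).le

theorem rect (hB : BOX) (s : ℕ) : RECT s := by
  refine ⟨s + 4, by omega, ?_⟩
  intro T N C W E κ _ _ _ _ _ _ _ Z cl m πE σE b y A ω x U l hl hE cE cκ hσ ω1 ωA hx dU hU hd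
  obtain ⟨y4, sy, k1, k2⟩ := num_B hE.cy hE.yA
  have yA := hE.yA
  have cW := hE.cW
  have A2 : 4 * A ≤ A ^ 2 := by nlinarith
  have key := star πE hB hl (env_of hE (by nlinarith)) (ω := ω) (ρ := 3 * exp y)
    (β := exp (-(8 * y + 63))) (Nat.le_floor (by push_cast; nlinarith)) (fun v => by
      have : 1 ≤ (Sum.elim σE fun _ : W => (1 : ℝ)) v ∧
          (Sum.elim σE fun _ : W => (1 : ℝ)) v ≤ exp A := by
        cases v with
        | inl e => exact hσ e
        | inr w => exact ⟨le_rfl, one_le_exp (by linarith)⟩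
      refine ⟨this.1, (mul_le_mul_of_nonneg_left (pow_le_pow_left₀ (by linarith) this.2 s)
        (by norm_num)).trans ?_⟩
      rw [← exp_nat_mul]
      exact mul_exp (by nlinarith)) hx (by
      refine (mul_le_mul_of_nonneg_left (mul_le_mul_of_nonneg_left ωA (exp_pos _).le)
        (by norm_num)).trans ?_
      rw [← exp_add]
      exact mul_exp (by nlinarith)) (by linarith) (by positivity) (by
      have := one_le_exp (show 0 ≤ y by linarith)
      rw [← mul_assoc]
      exact mul_le_mul_of_nonneg_right (by nlinarith) (by linarith)) (exp_pos _) (exp_pos _).le dU hU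
  have e1 : exp (-(8 * y)) ≤ _ := le_trans (by
    rw [← exp_add, ← exp_nat_mul]; exact exp_le_exp.2 (by push_cast; linarith))
    ((pow_le_pow_left₀ (by positivity) (mul_le_mul_of_nonneg_left hd (exp_pos (-y)).le) 4).trans key)
  have e2 : 64 * exp (-(8 * y + 63)) ≤ exp (-(8 * y)) := mul_exp (by linarith)
  have e3 : √(exp (-A ^ (s + 4))) = exp (-A ^ (s + 4) / 2) := (exp_half _).symm
  have e4 : 22 * exp (-A ^ (s + 4) / 2) ≤ exp (-A ^ (s + 4) / 2 + 21) := mul_exp (by linarith)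
  have e5 : 22 * exp (-A ^ (s + 4) / 2 + 21) ≤ exp (-(8 * y)) := mul_exp (by nlinarith)
  have e6 : 32 * exp (-y ^ (s + 4)) ≤ exp (-(8 * y)) := mul_exp (by linarith)
  have e7 : 3 * exp y * √(log (2 / exp (-(8 * y + 63)))) ≤ exp (y ^ (s + 4)) := by
    have : √(log (2 / exp (-(8 * y + 63)))) ≤ exp (y + 7) := by
      refine (sqrt_le_iff.2 ⟨by linarith, ?_⟩).trans ((by linarith : y + 8 ≤ y + 7 + 1).trans
        (add_one_le_exp _))
      rw [log_div two_ne_zero (exp_pos _).ne', log_exp]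
      nlinarith [log_le_sub_one_of_pos two_pos]
    refine (mul_le_mul_of_nonneg_left this (by positivity)).trans ?_
    rw [mul_assoc, ← exp_add]
    exact mul_exp (by linarith)
  rw [e3] at e1
  refine le_trans (le_of_mul_le_mul_left (a := 16) ?_ (by norm_num)) (dn_mono hE.ok hE.zok
    (E := fun z => (∀ i j, U (z ∘ lt (g := cn (DA l) (DB cl b l) i j) (fun _ => rfl) ())) ∧
      ∀ a, NR cl m Z (px πE).dbl ω (P2 (fun _ => True) fun v => DA l v ∨ DB cl b l v)
        (al4 (DA l) (DB cl b l) fun u => x.θ a (u ∘ ri πE))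
        (3 * exp y * √(log (2 / exp (-(8 * y + 63))))) (toR z)) (fun v => ?_) fun z a =>
    ⟨a.1, fun k => NL.mono (a.2 k) e7⟩)
  · linarith [exp_pos (-A ^ (s + 4) / 2)]
  · rcases v with ⟨e | w, _⟩
    exacts [one_pos.trans_le (hσ e).1, one_pos]

end

end Vale.Agent.P057CR
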