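import Vale.Agent.P057CR.Fib
import Vale.Agent.P057CR.Rect
import Vale.Agent.P057RG.Up

/-!
The chain of rectangles.
-/

set_option linter.all false

open Matrix Finset Real
open Vale.Agent.P267.H775 Vale.Agent.P057G Vale.Agent.P057MA Vale.Agent.P057PC
open Vale.Agent.P057TP hiding ind
open Vale.Agent.P057GH Vale.Agent.P057DP
open Vale.Agent.P057T1 (ind ind_pos ind_neg ind_nonneg ind_le abs_ind ind_mono)
open Vale.Agent.P057EN (fo_lt fo_add fo_sub fo_sum fo_mono)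

namespace Vale.Agent.P057CR

noncomputable section

variable {C W E κ : Type}

/-- the point with the copy `t v` of the vertex `v` -/
def tg (t : W → Fin 3 ⊕ W) : E ⊕ W → E ⊕ W × (Fin 3 ⊕ W) := Sum.map id fun v => (v, t v)

theorem h_tg (πE : E → W) (t : W → Fin 3 ⊕ W) (x : E ⊕ W) :
    (Oc πE).π (tg t x) = (px πE).π x := by cases x <;> rfl

theorem tg_inj (t : W → Fin 3 ⊕ W) : (tg t : E ⊕ W → _).Injective :=
  Function.injective_id.sumMap fun _ _ e => congrArg Prod.fst e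

theorem rg_tg {t : W → Fin 3 ⊕ W} {v : W} {i : Fin 3 ⊕ W} :
    (∃ u : E ⊕ W, tg t u = Sum.inr (v, i)) ↔ t v = i := by simp [tg]

section tags

variable [DecidableEq C] [DecidableEq W] (cl : W → C) (b : C) (D : Finset W) (l : W)

/-- the point of the stage `D` -/
def t0 (v : W) : Fin 3 ⊕ W := Sum.inl (if cl v = b ∧ v ∉ D then 1 else 0)

/-- the second copies -/
def t1 (v : W) : Fin 3 ⊕ W := if v = l then Sum.inl 1 else Sum.inr l

/-- a leaf with the copy `i` of `l` -/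
def t2 (i : Fin 3) (v : W) : Fin 3 ⊕ W :=
  if cl v = b ∧ v ≠ l then Sum.inr l else Sum.inl (if v = l then i else 0)

/-- the vertices of the stage `D` -/
def PD : E ⊕ W × (Fin 3 ⊕ W) → Prop :=
  Sum.elim (fun _ => True) fun x => x.2.elim
    (fun i => (i = 0 ∧ (cl x.1 = b → x.1 ∈ D)) ∨ (i = 1 ∧ cl x.1 = b))
    fun l => cl x.1 = b ∧ l ∈ D ∧ x.1 ≠ l

/-- the vertices of the rectangle -/
def hh (x : (E ⊕ W) × Bool) : E ⊕ W × (Fin 3 ⊕ W) :=
  tg (if x.2 then t1 l else t0 cl b (insert l D)) x.1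

/-- the vertices used by the rectangle -/
def Ph : E ⊕ W × (Fin 3 ⊕ W) → Prop :=
  Sum.elim (fun _ => True) fun x => x.2 = t0 cl b (insert l D) x.1 ∨ (cl x.1 = b ∧ x.2 = t1 l x.1)

/-- the corners -/
def tc (i j : Bool) : W → Fin 3 ⊕ W :=
  if j then t2 cl b l (if i then 1 else 0) else t0 cl b (if i then D else insert l D)

variable {cl b D l}

theorem hh_cn (hl : cl l = b) (hn : l ∉ D) (hD : ∀ v ∈ D, cl v = b) (i j : Bool) (x : E ⊕ W) :
    hh cl b D l (cn (DA l) (DB cl b l) i j x) = tg (tc cl b D l i j) x := by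
  cases x with
  | inl e => rfl
  | inr v =>
    refine congrArg (fun t => Sum.inr (v, t)) ?_
    by_cases a : v = l
    · subst a
      cases i <;> cases j <;> simp [cn, DA, tc, t0, t1, t2, hl, hn]
    · by_cases c : cl v = b <;> cases i <;> cases j <;> simp [cn, DA, DB, tc, t0, t1, t2, a, c]

theorem ph_iff (hl : cl l = b) (x : E ⊕ W × (Fin 3 ⊕ W)) : Ph cl b D l x ↔
    ∃ y, P2 (fun _ => True) (fun v => DA l v ∨ DB cl b l v) y ∧ hh cl b D l y = x := by
  rcases x with e | ⟨v, i⟩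
  · exact ⟨fun _ => ⟨(Sum.inl e, false), ⟨trivial, Or.inl rfl⟩, rfl⟩, fun _ => trivial⟩
  · constructor
    · rintro (a | ⟨a, c⟩)
      · exact ⟨(Sum.inr v, false), ⟨trivial, Or.inl rfl⟩, congrArg (fun t => Sum.inr (v, t)) a.symm⟩
      · refine ⟨(Sum.inr v, true), ⟨trivial, Or.inr ?_⟩, congrArg (fun t => Sum.inr (v, t)) c.symm⟩
        exact (em (v = l)).imp (congrArg Sum.inr) fun n => ⟨v, rfl, a, n⟩
    · rintro ⟨⟨e | u, j⟩, ⟨-, a⟩, c⟩
      · cases c
      · obtain ⟨rfl, rfl⟩ := Prod.mk.inj (Sum.inr_injective c)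
        cases j
        · exact Or.inl rfl
        · refine Or.inr ⟨?_, rfl⟩
          rcases a with a | a | ⟨w, a, c, -⟩
          exacts [(by cases a), Sum.inr_injective a ▸ hl, Sum.inr_injective a ▸ c]

theorem hh_inj : Set.InjOn (hh (E := E) cl b D l)
    {x | P2 (fun _ => True) (fun v => DA l v ∨ DB cl b l v) x} := by
  have key : ∀ v, t1 l v ≠ t0 cl b (insert l D) v := fun v => by
    by_cases a : v = l <;> simp [t0, t1, a]
  rintro ⟨e | v, i⟩ ⟨-, a⟩ ⟨e' | v', i'⟩ ⟨-, a'⟩ c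
  · obtain rfl : e = e' := Sum.inl_injective c
    simp only [DA, DB, reduceCtorEq, false_and, exists_false, or_false] at a a'
    rw [a, a']
  · cases c
  · cases c
  · obtain ⟨rfl, k⟩ := Prod.mk.inj (Sum.inr_injective c)
    cases i <;> cases i'
    exacts [rfl, (key _ k.symm).elim, (key _ k).elim, rfl]

theorem t0_ne (v : W) : t0 cl b D v ≠ Sum.inl 2 := by unfold t0; split_ifs <;> simp

theorem t1_ne (v : W) : t1 l v ≠ Sum.inl 2 := by unfold t1; split_ifs <;> simp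

theorem ph_tc (hl : cl l = b) (hn : l ∉ D) (hD : ∀ v ∈ D, cl v = b) (i j : Bool) (x : E ⊕ W) :
    Ph cl b D l (tg (tc cl b D l i j) x) :=
  (ph_iff hl _).2 ⟨_, ⟨trivial, by
    by_cases a : DA l x
    · exact Or.inr (Or.inl a)
    · by_cases c : DB cl b l x
      · exact Or.inr (Or.inr c)
      · exact Or.inl (by simp [cn, a, c])⟩, hh_cn hl hn hD i j x⟩

theorem pd_t0 {D' : Finset W} (h : D' ⊆ D) (x : E ⊕ W) : PD cl b D (tg (t0 cl b D') x) := by
  cases x with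
  | inl e => trivial
  | inr v =>
    by_cases a : cl v = b ∧ v ∉ D'
    · simp [PD, tg, t0, a]
    · simpa [PD, tg, t0, a] using fun c => h (not_not.1 fun n => a ⟨c, n⟩)

theorem pd_t2 (hl : cl l = b) (h : l ∈ D) {i : Fin 3} (hi : i = 0 ∨ i = 1) (x : E ⊕ W) :
    PD cl b D (tg (t2 cl b l i) x) := by
  cases x with
  | inl e => trivial
  | inr v =>
    by_cases a : v = l
    · rcases hi with rfl | rfl <;> simp [PD, tg, t2, a, hl, h]
    · by_cases c : cl v = b <;> simp [PD, tg, t2, a, c, h]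

theorem pd_ins (hl : cl l = b) (x : E ⊕ W × (Fin 3 ⊕ W)) :
    PD cl b (insert l D) x ↔ PD cl b D x ∨ Ph cl b D l x := by
  rcases x with e | ⟨v, i | k⟩
  · simp [PD]
  · by_cases a : v = l <;> by_cases c : cl v = b <;> by_cases d : v ∈ D <;>
      simp [PD, Ph, t0, t1, a, c, d, hl] <;> tauto
  · by_cases a : v = l <;> simp [PD, Ph, t0, t1, a] <;> grind

theorem pd_ph (hl : cl l = b) (hn : l ∉ D) (x : E ⊕ W × (Fin 3 ⊕ W)) (h1 : PD cl b D x)
    (h2 : Ph cl b D l x) : ∃ u, tg (t0 cl b D) u = x := by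
  rcases x with e | ⟨v, i | k⟩
  · exact ⟨Sum.inl e, rfl⟩
  · rw [rg_tg]
    by_cases a : v = l <;> by_cases c : cl v = b <;> by_cases d : v ∈ D <;>
      simp_all [PD, Ph, t0, t1]
  · by_cases a : v = l <;> simp_all [PD, Ph, t0, t1]

theorem pd_cl (πE : E → W) (D' : Finset W) (x : E ⊕ W × (Fin 3 ⊕ W)) (h : PD cl b D x) :
    (∃ u, tg (t0 cl b D') u = x) ∨ cl ((Oc πE).π x) = b := by
  rcases x with e | ⟨v, i | k⟩
  · exact Or.inl ⟨Sum.inl e, rfl⟩
  · refine (em (cl v = b)).symm.imp (fun c => rg_tg.2 ?_) id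
    simp_all [PD, t0]
  · exact Or.inr h.1

theorem pd_empty (x : E ⊕ W × (Fin 3 ⊕ W)) : PD cl b ∅ x ↔ ∃ u, tg (t0 cl b ∅) u = x := by
  rcases x with e | ⟨v, i | k⟩
  · exact ⟨fun _ => ⟨Sum.inl e, rfl⟩, fun _ => trivial⟩
  · rw [rg_tg]
    by_cases c : cl v = b <;> simp [PD, t0, c, @eq_comm _ i]
  · rw [rg_tg]; simp [PD, t0]

end tags

theorem jk_tg (πE : E → W) {t : W → Fin 3 ⊕ W} (ht : ∀ v, t v ≠ Sum.inl 2) (x : E ⊕ W) :
    (Oc πE).jk (tg t x) = (px πE).jk x := by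
  rcases x with e | v
  · rfl
  · have := ht v
    change (t v).elim _ _ = true
    cases e : t v <;> simp_all

theorem sc_tg (σE : E → ℝ) (ν : ℝ) {t : W → Fin 3 ⊕ W} (ht : ∀ v, t v ≠ Sum.inl 2) (x : E ⊕ W) :
    σc σE ν (tg t x) = Sum.elim σE (fun _ => 1) x := by
  rcases x with e | v
  · rfl
  · have := ht v
    change (t v).elim _ _ = (1 : ℝ)
    cases e : t v <;> simp_all

variable {T : Tow} {cl : W → C} {m s : ℕ} {N : ℝ} [DecidableEq C] [Fintype W] [DecidableEq W]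
  [Fintype E] [DecidableEq E] {Z : Sys T W Unit} (πE : E → W) {b : C} {D : Finset W} {l : W}

/-- the labels of a point -/
abbrev lg (t : W → Fin 3 ⊕ W) : LT T cl m (px πE) → LT T cl m (Oc πE) := lt (h_tg πE t) ()

theorem h_hh (x : (E ⊕ W) × Bool) : (Oc πE).π (hh cl b D l x) = (px πE).dbl.π x := h_tg πE _ _

variable (b D l) in
/-- the labels of the rectangle -/
abbrev lh : LT T cl m (px πE).dbl → LT T cl m (Oc πE) :=
  lt (g := hh cl b D l) (h_hh πE) ()

theorem lg_cn {α : Type} (hl : cl l = b) (hn : l ∉ D) (hD : ∀ v ∈ D, cl v = b) (i j : Bool)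
    (z : LT T cl m (Oc πE) → α) : (z ∘ lh πE b D l) ∘
      lt (g := cn (DA l) (DB cl b l) i j) (fun _ => rfl) () = z ∘ lg πE (tc cl b D l i j) :=
  funext fun k => congrArg z (lb_ext rfl (image_image.trans (image_congr fun v _ => by
    cases v with
    | inl x => exact congrArg Sum.inl (hh_cn hl hn hD i j x)
    | inr u => rfl)) ((bs_lt _).trans (bs_lt _).symm))

variable (Z b l) (ω K : ℝ) (ϑ : κ → (LT T cl m (px πE) → ℝ) → ℝ)

/-- rectangles with corners in `G` -/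
def Rc (G : (LT T cl m (px πE) → ℤ) → Prop) (z : LT T cl m (px πE).dbl → ℤ) : Prop :=
  (∀ i j, G (z ∘ lt (g := cn (DA l) (DB cl b l) i j) (fun _ => rfl) ())) ∧
    ∀ a, NR cl m Z (px πE).dbl ω (P2 (fun _ => True) fun v => DA l v ∨ DB cl b l v)
      (al4 (DA l) (DB cl b l) (ϑ a)) K (toR z)

variable (D)

/-- the form of the stage `D` -/
def Th (a : κ) (u : LT T cl m (Oc πE) → ℝ) : ℝ :=
  ϑ a (u ∘ lg πE (t0 cl b D)) - ϑ a (u ∘ lg πE (t0 cl b ∅)) -
    ∑ l ∈ D, (ϑ a (u ∘ lg πE (t2 cl b l 0)) - ϑ a (u ∘ lg πE (t2 cl b l 1)))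

/-- the event of the stage `D` -/
def Rel (U : (LT T cl m (px πE) → ℤ) → Prop) (z : LT T cl m (Oc πE) → ℤ) : Prop :=
  (∀ l ∈ D, U (z ∘ lg πE (t2 cl b l 0))) ∧
    ∀ a, NR cl m Z (Oc πE) ω (PD cl b D) (Th πE b D ϑ a) (D.card * K) (toR z)

variable {Z b l ω K ϑ D} {U G : (LT T cl m (px πE) → ℤ) → Prop}

theorem p2_cn (i j : Bool) (x : E ⊕ W) : P2 (fun _ => True) (fun v => DA l v ∨ DB cl b l v)
    (cn (DA l) (DB cl b l) i j x) := ⟨trivial, by
  by_cases a : DA l x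
  · exact Or.inr (Or.inl a)
  · by_cases c : DB cl b l x
    · exact Or.inr (Or.inr c)
    · exact Or.inl (by simp [cn, a, c])⟩

theorem fo_al4 {Θ : (LT T cl m (px πE) → ℝ) → ℝ} (h : Fo cl m (px πE) (fun _ => True) Θ) :
    Fo cl m (px πE).dbl (P2 (fun _ => True) fun v => DA l v ∨ DB cl b l v)
      (al4 (DA l) (DB cl b l) Θ) :=
  have k := fun i j => fo_lt (O₂ := (px πE).dbl) (g := cn (DA l) (DB cl b l) i j) (fun _ => rfl)
    (fun x _ => p2_cn i j x) h
  fo_add (fo_sub (fo_sub (k _ _) (k _ _)) (k _ _)) (k _ _)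

theorem dp_Rc (hT : T.Ok s N) (hZ : Z.Ok) (hϑ : ∀ a, Fo cl m (px πE) (fun _ => True) (ϑ a))
    (dG : Dp (b0 T cl m (px πE) Unit Empty fun _ => True) G) :
    Dp (b0 T cl m (px πE).dbl Unit Empty (P2 (fun _ => True) fun v => DA l v ∨ DB cl b l v))
      (Rc Z πE b l ω K ϑ G) := fun z z' hz =>
  congrArg₂ And (forall_congr fun i => forall_congr fun j =>
      dG _ _ fun k hk => hz _ (lf_b0 (fun x _ => p2_cn i j x) hk))
    (forall_congr fun a =>
      NR.dp hT hZ (fo_al4 πE (hϑ a)).dp _ _ fun k hk => congrArg Int.cast (hz k hk))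

theorem fo_Th (hD : ∀ v ∈ D, cl v = b) (hϑ : ∀ a, Fo cl m (px πE) (fun _ => True) (ϑ a)) (a : κ) :
    Fo cl m (Oc πE) (PD cl b D) (Th πE b D ϑ a) :=
  fo_sub (fo_sub (fo_lt _ (fun x _ => pd_t0 Subset.rfl x) (hϑ a))
    (fo_lt _ (fun x _ => pd_t0 (empty_subset _) x) (hϑ a))) (fo_sum _ fun l hl =>
      fo_sub (fo_lt _ (fun x _ => pd_t2 (hD l hl) hl (Or.inl rfl) x) (hϑ a))
        (fo_lt _ (fun x _ => pd_t2 (hD l hl) hl (Or.inr rfl) x) (hϑ a)))

theorem dp_Rel (hT : T.Ok s N) (hZ : Z.Ok) (hD : ∀ v ∈ D, cl v = b)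
    (hϑ : ∀ a, Fo cl m (px πE) (fun _ => True) (ϑ a))
    (dU : Dp (b0 T cl m (px πE) Unit Empty fun _ => True) U) :
    Dp (b0 T cl m (Oc πE) Unit Empty (PD cl b D)) (Rel Z πE b D ω K ϑ U) := fun z z' hz =>
  congrArg₂ And (forall_congr fun l => forall_congr fun hl =>
      dU _ _ fun k hk => hz _ (lf_b0 (fun x _ => pd_t2 (hD l hl) hl (Or.inl rfl) x) hk))
    (forall_congr fun a =>
      NR.dp hT hZ (fo_Th πE hD hϑ a).dp _ _ fun k hk => congrArg Int.cast (hz k hk))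

theorem jk_hh (x : (E ⊕ W) × Bool) : (Oc πE).jk (hh cl b D l x) = (px πE).dbl.jk x :=
  jk_tg πE (fun v => by split_ifs; exacts [t1_ne v, t0_ne v]) _

theorem rel_ins (hT : T.Ok s N) (hZ : Z.Ok) (hω : 0 < ω) (hK : 0 ≤ K) (hl : cl l = b) (hn : l ∉ D)
    (hD : ∀ v ∈ D, cl v = b) (hϑ : ∀ a, Fo cl m (px πE) (fun _ => True) (ϑ a))
    (hG : ∀ z, G z → U z) {z : LT T cl m (Oc πE) → ℤ} (h1 : Rel Z πE b D ω K ϑ U z)
    (h2 : Rc Z πE b l ω K ϑ G (z ∘ lh πE b D l)) :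
    Rel Z πE b (insert l D) ω K ϑ U z := by
  refine ⟨fun k hk => ?_, fun a => ?_⟩
  · rcases mem_insert.1 hk with rfl | hk
    · exact hG _ (lg_cn πE hl hn hD false true z ▸ h2.1 false true)
    · exact h1.1 k hk
  · have k1 := ((nr_emb' hT hZ (h_hh πE) hh_inj (fun x _ => jk_hh πE x) (ph_iff hl)
      (fo_al4 πE (hϑ a)).dp (y := toR z)).2 (h2.2 a)).up hT hZ hω hK
      (fun x c => (pd_ins hl x).2 (Or.inr c))
      (dp_lt (fun x c => (ph_iff hl _).2 ⟨x, c, rfl⟩) (fo_al4 πE (hϑ a)).dp)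
    have k2 := (h1.2 a).up hT hZ hω (by positivity) (fun x c => (pd_ins hl x).2 (Or.inl c))
      (fo_Th πE hD hϑ a).dp
    rw [card_insert_of_notMem hn, Nat.cast_succ, add_mul, one_mul]
    refine (NL.add k2 k1).congr fun x => ?_
    simp only [Th, al4, lg_cn πE hl hn hD, sum_insert hn, tc, if_true, Bool.false_eq_true, if_false]
    ring

variable {σE : E → ℝ} {ν ε β : ℝ}

theorem chain (hT : T.Ok s N) (hZ : Z.Ok) (hσ : ∀ e, 0 < σE e) (hν : 0 < ν) (hω : 0 < ω)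
    (hK : 0 ≤ K) (hβ : 0 < β) (hε : 0 ≤ ε) (hϑ : ∀ a, Fo cl m (px πE) (fun _ => True) (ϑ a))
    (dU : Dp (b0 T cl m (px πE) Unit Empty fun _ => True) U)
    (hm : (tst cl m Z (px πE) (Sum.elim σE fun _ => 1) 1).mass
      (b0 T cl m (px πE) Unit Empty fun _ => True) ≤ 2)
    (hR : ∀ l, cl l = b → ∀ G, (∀ z, G z → U z) →
      Dp (b0 T cl m (px πE) Unit Empty fun _ => True) G →
      ε ≤ dn cl m Z (px πE) (Sum.elim σE fun _ => 1) (fun _ => True) G →
      3 * β ≤ dn cl m Z (px πE).dbl ((Sum.elim σE fun _ => 1) ∘ Prod.fst)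
        (P2 (fun _ => True) fun v => DA l v ∨ DB cl b l v) (Rc Z πE b l ω K ϑ G))
    (D : Finset W) (hD : ∀ v ∈ D, cl v = b) :
    ∃ G, (∀ z, G z → U z) ∧ Dp (b0 T cl m (px πE) Unit Empty fun _ => True) G ∧
      dn cl m Z (px πE) (Sum.elim σE fun _ => 1) (fun _ => True) U ≤
        dn cl m Z (px πE) (Sum.elim σE fun _ => 1) (fun _ => True) G + D.card * ε ∧
      ∀ φ, Bd φ → (∀ z, 0 ≤ φ z) → Dp (b0 T cl m (px πE) Unit Empty fun _ => True) φ →
        β ^ D.card * Er (tst cl m Z (px πE) (Sum.elim σE fun _ => 1) 1)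
          (b0 T cl m (px πE) Unit Empty fun _ => True) (fun z => φ z * ind (G z)) ≤
        Er (tst cl m Z (Oc πE) (σc σE ν) 1) (b0 T cl m (Oc πE) Unit Empty (PD cl b D))
          fun z => ind (Rel Z πE b D ω K ϑ U z) * φ (z ∘ lg πE (t0 cl b D)) := by
  have σ1 : ∀ x, 0 < (Sum.elim σE fun _ : W => (1 : ℝ)) x := by
    rintro (e | v); exacts [hσ e, one_pos]
  have σ2 : ∀ x : E ⊕ W × (Fin 3 ⊕ W), 0 < σc σE ν x := by
    rintro (e | ⟨v, i | k⟩)
    exacts [hσ e, by change 0 < ite _ _ _; split_ifs; exacts [hν, one_pos], one_pos]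
  have lo1 := (lo_tst (cl := cl) (m := m) (O := px πE) hT hZ σ1 one_pos).toTr
  have lo2 := (lo_tst (cl := cl) (m := m) (O := Oc πE) hT hZ σ2 one_pos).toTr
  have bc : ∀ {φ : (LT T cl m (px πE) → ℤ) → ℝ} (t), Bd φ → Bd fun z => φ (z ∘ lg πE t) :=
    fun _ k => k.imp fun _ k _ => k _
  induction D using Finset.induction_on with
  | empty =>
    refine ⟨U, fun _ => id, dU, by simp, fun φ bφ φ0 dφ => ?_⟩
    rw [card_empty, pow_zero, one_mul, ← er_emb (h := h_tg πE (t0 cl b ∅)) (tg_inj _)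
      (jk_tg πE t0_ne) (sc_tg σE ν t0_ne) pd_empty]
    refine lo2.Er_le (bc _ (bφ.mul (bd_ind _))) ((bd_ind _).mul (bc _ bφ)) fun z _ => ?_
    rw [ind_pos (p := Rel _ _ _ _ _ _ _ _ _) ⟨by simp, fun a => (nl_zero (by simp)).congr
      fun x => by simp [Th]⟩, one_mul]
    exact mul_le_of_le_one_right (φ0 _) (ind_le _)
  | insert l D hn ih =>
    have hl := hD l (mem_insert_self _ _)
    have hD' := fun v hv => hD v (mem_insert_of_mem hv)
    obtain ⟨G, g1, g2, g3, g4⟩ := ih hD'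
    let R := fun z : LT T cl m (Oc πE) → ℤ =>
      ind (Rc Z πE b l ω K ϑ G (z ∘ lh πE b D l))
    have dR : Dp (b0 T cl m (Oc πE) Unit Empty (Ph cl b D l)) R :=
      ((dp_Rc πE hT hZ hϑ g2).comp fun k hk =>
        lf_b0 (fun x c => (ph_iff hl _).2 ⟨x, c, rfl⟩) hk).map ind
    have q0 := ph_tc (E := E) hl hn hD' false false
    have q1 := ph_tc (E := E) hl hn hD' true false
    have c0 := fun D' x (c : Ph cl b D l x) => pd_cl πE D' x ((pd_ins hl x).2 (Or.inr c))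
    let sh := fib Z (σc σE ν) (h_tg πE (t0 cl b (insert l D))) (Ph cl b D l) R
    have bs : Bd sh := bd_fib hT hZ σ2 (bd_ind _)
    have s0 : ∀ y, 0 ≤ sh y := fib_nonneg fun _ => ind_nonneg _
    have ds := dp_fib (h := h_tg πE (t0 cl b (insert l D))) hT hZ σ2 (tg_inj _) q0 dR
    have dc : ∀ {φ : (LT T cl m (px πE) → ℤ) → ℝ},
        Dp (b0 T cl m (px πE) Unit Empty fun _ => True) φ →
        Dp (b0 T cl m (Oc πE) Unit Empty (Ph cl b D l))
          fun z => φ (z ∘ lg πE (t0 cl b (insert l D))) * R z := fun dφ =>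
      (dφ.comp fun k hk => lf_b0 (fun x _ => q0 x) hk).map₂ dR (· * ·)
    have e0 : ∀ φ, Bd φ → Dp (b0 T cl m (px πE) Unit Empty fun _ => True) φ →
        Er (tst cl m Z (Oc πE) (σc σE ν) 1) (b0 T cl m (Oc πE) Unit Empty (Ph cl b D l))
          (fun z => φ (z ∘ lg πE (t0 cl b (insert l D))) * R z) =
        Er (tst cl m Z (px πE) (Sum.elim σE fun _ => 1) 1)
          (b0 T cl m (px πE) Unit Empty fun _ => True) fun y => φ y * sh y := fun φ bφ dφ => by
      rw [er_fib' (h := h_tg πE (t0 cl b (insert l D))) hT hZ σ2 (tg_inj _) b (jk_tg πE t0_ne)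
        (sc_tg σE ν t0_ne) q0 (c0 _) ((bc _ bφ).mul (bd_ind _)) (dc dφ),
        funext (fib_mul (tg_inj _) dφ)]
    refine ⟨fun y => G y ∧ β ≤ sh y, fun y a => g1 y a.1, g2.map₂ ds fun u v => u ∧ β ≤ v, ?_,
      fun φ bφ φ0 dφ => ?_⟩
    · have d1 := g2.map₂ ds fun u v => u ∧ ¬ β ≤ v
      have := dn_and (P := fun _ => True) hT hZ σ1 G fun y => β ≤ sh y
      have k : dn cl m Z (px πE) (Sum.elim σE fun _ => 1) (fun _ => True)
          (fun y => G y ∧ ¬ β ≤ sh y) ≤ ε := not_lt.1 fun n => by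
        have k1 := hR l hl _ (fun y a => g1 y a.1) d1 n.le
        rw [← dn_emb' (σ₁ := (Sum.elim σE fun _ => 1) ∘ Prod.fst) (σ₂ := σc σE ν) (h_hh (D := D) πE) hh_inj (fun x _ => jk_hh πE x)
          (fun x _ => sc_tg σE ν (fun v => by split_ifs; exacts [t1_ne v, t0_ne v]) _) (ph_iff hl)
          (dp_Rc πE hT hZ hϑ d1)] at k1
        have k2 := (k1.trans (lo2.Er_le (bd_ind _) ((bc _ (bd_ind _)).mul (bd_ind _))
          fun z _ => by
            rw [← ind_and]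
            exact ind_mono fun a => ⟨lg_cn πE hl hn hD' false false z ▸ a.1 false false,
              fun i j => (a.1 i j).1, a.2⟩)).trans_eq (e0 _ (bd_ind _) (d1.map ind))
        have k3 := k2.trans (lo1.Er_le (g := fun _ => β) ((bd_ind _).mul bs) (bd_const β)
          fun y _ => by
            by_cases a : G y ∧ ¬ β ≤ sh y
            · rw [ind_pos a, one_mul]; exact (not_le.1 a.2).le
            · rw [ind_neg a, zero_mul]; exact hβ.le)
        rw [Er_const] at k3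
        nlinarith
      rw [card_insert_of_notMem hn, Nat.cast_succ]
      linarith
    · let F := fun z : LT T cl m (Oc πE) → ℤ => φ (z ∘ lg πE (t0 cl b (insert l D))) * R z
      have bF : Bd F := (bc _ bφ).mul (bd_ind _)
      have F0 : ∀ z, 0 ≤ F z := fun z => mul_nonneg (φ0 _) (ind_nonneg _)
      have k1 := g4 (fib Z (σc σE ν) (h_tg πE (t0 cl b D)) (Ph cl b D l) F) (bd_fib hT hZ σ2 bF)
        (fib_nonneg F0) (dp_fib hT hZ σ2 (tg_inj _) q1 (dc dφ))
      have e1 : ∀ z, F z = ind (G (z ∘ lg πE (t0 cl b D))) * F z := fun z => by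
        by_cases a : Rc Z πE b l ω K ϑ G (z ∘ lh πE b D l)
        · rw [ind_pos (p := G _) (lg_cn πE hl hn hD' true false z ▸ a.1 true false), one_mul]
        · simp only [F, R, ind_neg a, mul_zero]
      have e2 := er_fib' (h := h_tg πE (t0 cl b D)) hT hZ σ2 (tg_inj _) b (jk_tg πE t0_ne)
        (sc_tg σE ν t0_ne) q1 (c0 _) bF (dc dφ)
      rw [← er_fib (h := h_tg πE (t0 cl b D)) hT hZ σ2 (tg_inj _) b (pd_t0 Subset.rfl) q1 (pd_ins hl) (pd_ph hl hn)
        (pd_cl πE D) (bd_ind _) ((dp_Rel πE hT hZ hD' hϑ dU).map ind) bF (dc dφ)] at k1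
      simp only [mul_comm _ (ind (G _)), ← fib_mul (tg_inj _) (g2.map ind), ← e1] at k1
      rw [← e2, e0 φ bφ dφ] at k1
      rw [card_insert_of_notMem hn, pow_succ, mul_assoc, ← Er_mul]
      refine le_trans (mul_le_mul_of_nonneg_left (lo1.Er_le ((bd_const _).mul (bφ.mul (bd_ind _)))
        (bφ.mul bs) fun y _ => ?_) (by positivity)) (k1.trans (lo2.Er_le ((bd_ind _).mul bF)
          ((bd_ind _).mul (bc _ bφ)) fun z _ => ?_))
      · by_cases a : G y ∧ β ≤ sh y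
        · rw [ind_pos a, mul_one, mul_comm]; exact mul_le_mul_of_nonneg_left a.2 (φ0 y)
        · rw [ind_neg a, mul_zero, mul_zero]; exact mul_nonneg (φ0 y) (s0 y)
      · simp only [F, R]
        rw [mul_comm (φ _), ← mul_assoc, ← ind_and]
        exact mul_le_mul_of_nonneg_right (ind_mono fun a =>
          rel_ins πE hT hZ hω hK hl hn hD' hϑ g1 a.1 a.2) (φ0 _)

theorem pd_all : PD (E := E) cl b (univ.filter (cl · = b)) = Pc cl b := by
  funext x
  rcases x with e | ⟨v, i | k⟩ <;> simp [PD, Pc]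

theorem lg_og : (lg πE (t0 cl b (univ.filter (cl · = b))) : LT T cl m (px πE) → _) =
    lt (h_og πE) () := funext fun k => lf_congr (fun x _ => by cases x <;> simp [tg, og, t0])
  (fun _ _ => rfl) fun _ _ => rfl

theorem lg_lw : (lg πE (t2 cl b l 0) : LT T cl m (px πE) → _) = lt (h_lw πE cl b l) () :=
  funext fun k => lf_congr (fun x _ => by cases x <;> simp [tg, lw, t2]) (fun _ _ => rfl)
    fun _ _ => rfl

theorem pc_t0 (x : E ⊕ W) : Pc cl b (tg (t0 cl b ∅) x) ∧ ¬ Da cl b (tg (t0 cl b ∅) x) := by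
  cases x with
  | inl e => exact ⟨trivial, id⟩
  | inr v => by_cases a : cl v = b <;> simp [Pc, Da, tg, t0, a]

theorem pc_t2 (hl : cl l = b) (x : E ⊕ W) :
    Pc cl b (tg (t2 cl b l 1) x) ∧ ¬ Da cl b (tg (t2 cl b l 1) x) := by
  cases x with
  | inl e => exact ⟨trivial, id⟩
  | inr v => by_cases c : v = l <;> by_cases a : cl v = b <;> simp_all [Pc, Da, tg, t2]

theorem num_c {c s : ℕ} {y : ℝ} (hc : 1 ≤ c) (hy : ((2 * c + s + 4 : ℕ) : ℝ) ≤ y) :
    6 ≤ y ∧ (s : ℝ) ≤ y ∧ (c : ℝ) ≤ y ^ 2 ∧ y ^ 2 ≤ (y ^ 2) ^ c ∧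
      y ^ 2 * (y ^ 2) ^ c ≤ y ^ (2 * c + s + 4) := by
  have c1 : (1 : ℝ) ≤ c := by exact_mod_cast hc
  have s0 : (0 : ℝ) ≤ s := Nat.cast_nonneg _
  push_cast at hy
  refine ⟨by linarith, by linarith, by nlinarith, le_self_pow₀ (by nlinarith) (by omega), ?_⟩
  rw [← pow_succ', ← pow_mul]
  exact pow_le_pow_right₀ (by linarith) (by omega)

theorem chn (hB : BOX) (s : ℕ) : CHN s := by
  obtain ⟨c, c1, hR⟩ := rect hB s
  refine ⟨2 * c + s + 4, by omega, ?_⟩
  intro T N C W E κ _ _ _ _ _ _ _ Z cl m πE σE b y A ω ν x U hE cE cκ hσ ω1 ωA ν1 νA hx dU hU hd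
  obtain ⟨y6, sy, k1, k2, k3⟩ := num_c c1 hE.cy
  have yA := hE.yA
  have cW := hE.cW
  have y2 : 6 * y ≤ y ^ 2 := by nlinarith
  have A2 : y ^ 2 ≤ A ^ 2 := pow_le_pow_left₀ (by linarith) yA 2
  have A3 : A ≤ A ^ 2 := by nlinarith
  have A4 : 16 * A ^ 2 ≤ A ^ (2 * c + s + 4) := by
    refine le_trans ?_ (pow_le_pow_right₀ (by linarith) (show 4 ≤ _ by omega))
    nlinarith
  have hE2 : En s N c m Z (y ^ 2) (A ^ 2) := ⟨hE.ok, hE.zok, k1, A2,
    fun e => (hE.dm e).trans (exp_le_exp.2 (by linarith)), by linarith, hE.lf.imp fun d h =>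
      ⟨h.1, by
        have : (A ^ 2) ^ c ≤ A ^ (2 * c + s + 4) := by
          rw [← pow_mul]; exact pow_le_pow_right₀ (by linarith) (by omega)
        exact P057RG.lfd_mono hE.ok h.2 le_rfl this this⟩⟩
  have σ0 := fun e => one_pos.trans_le (hσ e).1
  have en := hE.env (by omega)
  have hm := (en.lf_tst (cl := cl) (O := px πE) (σ := Sum.elim σE fun _ => 1)
    (Nat.le_floor (by push_cast [Fintype.card_sum]; nlinarith)) (fun v => by
      have : 1 ≤ (Sum.elim σE fun _ : W => (1 : ℝ)) v ∧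
          (Sum.elim σE fun _ : W => (1 : ℝ)) v ≤ exp A := by
        cases v with
        | inl e => exact hσ e
        | inr w => exact ⟨le_rfl, one_le_exp (by linarith)⟩
      refine ⟨this.1, (mul_le_mul_of_nonneg_left (pow_le_pow_left₀ (by linarith) this.2 s)
        (by norm_num)).trans ?_⟩
      rw [← exp_nat_mul]
      exact mul_exp (by nlinarith)) one_pos (by linarith [en.L4])).le en.η1
    (dc_ms (cq_b0 fun _ => True))
  have hϑ : ∀ a, Fo cl m (px πE) (fun _ => True) fun u => x.θ a (u ∘ ri πE) := fun a =>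
    fo_lt _ (fun _ _ => trivial) (hx.fo a)
  have hD : ∀ v ∈ univ.filter (cl · = b), cl v = b := fun v hv => (mem_filter.1 hv).2
  set u := (y ^ 2) ^ c
  obtain ⟨G, g1, g2, g3, g4⟩ := chain πE hE.ok hE.zok σ0 (one_pos.trans_le ν1) (one_pos.trans_le ω1)
    (exp_pos u).le (exp_pos (-(u + 2))) (exp_pos (-y ^ 2)).le hϑ dU hm (fun l hl G a1 a2 a3 =>
      (mul_exp (by linarith)).trans (hR T N C W E κ Z cl m πE σE b _ _ ω x G l hl hE2 (by linarith)
        (by linarith) (fun e => ⟨(hσ e).1, (hσ e).2.trans (exp_le_exp.2 A3)⟩) ω1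
        (ωA.trans (exp_le_exp.2 A3)) ⟨hx.kp, hx.c0, fun F o => ⟨(hx.bd F o).1, (hx.bd F o).2.trans
          (mul_le_mul_of_nonneg_right (exp_le_exp.2 (by linarith)) (by linarith))⟩, hx.ce, hx.g1,
          hx.fo⟩ a2 (fun z a w e => (exp_le_exp.2 (by linarith)).trans (hU z (a1 z a) w e)) a3))
    _ hD
  have p0 : ((univ.filter (cl · = b)).card : ℝ) ≤ y :=
    le_trans (by exact_mod_cast card_le_univ _) cW
  generalize hp : (univ.filter (cl · = b)).card = p at p0 g3 g4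
  have e1 : (2 * y) * exp (-y ^ 2) ≤ exp (-y) := mul_exp (by linarith)
  have e2 : 2 * exp (-(y + 1)) ≤ exp (-y) := mul_exp (by linarith)
  have e3 : exp (-(y + 1)) ≤ dn cl m Z (px πE) (Sum.elim σE fun _ => 1) (fun _ => True) G := by
    nlinarith [exp_pos (-y ^ 2)]
  have k4 := g4 _ (bd_ind U) (fun _ => ind_nonneg _) (dU.map ind)
  simp only [← ind_and, show ∀ z, (U z ∧ G z) = G z from fun z => propext (and_iff_right_of_imp
    (g1 z))] at k4
  rw [pd_all] at k4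
  refine ⟨fun a w => x.θ a ((w ∘ lg πE (t0 cl b ∅)) ∘ ri πE) -
    ∑ l ∈ univ.filter (cl · = b), x.θ a ((w ∘ lg πE (t2 cl b l 1)) ∘ ri πE), fun a =>
      fo_sub (fo_lt _ (fun v _ => pc_t0 v) (hϑ a)) (fo_sum _ fun l hl =>
        fo_lt _ (fun v _ => pc_t2 (hD l hl) v) (hϑ a)), ?_⟩
  refine le_trans ?_ (((mul_le_mul_of_nonneg_left e3 (by positivity)).trans k4).trans
    (dn_mono hE.ok hE.zok (fun v => ?_) fun z a => ⟨by simpa only [lg_og] using a.2, fun l hl => by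
      simpa only [lg_lw] using a.1.1 l (mem_filter.2 ⟨mem_univ _, hl⟩), fun k => ?_⟩))
  · rw [← exp_nat_mul, ← exp_add]
    exact exp_le_exp.2 (by nlinarith)
  · rcases v with e | ⟨v, i | k⟩
    exacts [σ0 e, by change 0 < ite _ _ _; split_ifs; exacts [one_pos.trans_le ν1, one_pos],
      one_pos]
  · have := a.1.2 k
    rw [pd_all, hp] at this
    refine (NL.mono this ((mul_le_mul_of_nonneg_right p0 (exp_pos _).le).trans
      (mul_exp (by nlinarith)))).congr fun w => ?_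
    simp only [Th, lg_og, lg_lw, sum_sub_distrib, Function.comp_assoc]
    ring

end

end Vale.Agent.P057CR
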