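import Vale.Agent.P057CR.Draw
import Vale.Agent.P057SG.Plan

/-!
Charts in every direction after one refinement step for every class.
-/

set_option linter.all false
set_option synthInstance.maxSize 1024

open Matrix Finset Real
open Vale.Agent.P267.H775 Vale.Agent.P057G Vale.Agent.P057MA
open Vale.Agent.P057T1 (ind ind_pos ind_neg ind_nonneg ind_le abs_ind pr cq a4)
open Vale.Agent.P057IV Vale.Agent.P057QP

namespace Vale.Agent.P057CR

noncomputable section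

variable {V : Type} [Fintype V] [DecidableEq V]

section aux

variable {ι : Type} [Fintype ι] [DecidableEq ι] {S : MS V ι} {F : Finset V}

theorem den_ex (h : S.Ok) {E : (ι → ℝ) → Prop} (p : 0 < den S F E) : ∃ z : ι → ℤ, E (toR z) := by
  by_contra x
  refine absurd (den_mono (F := F) (E' := fun _ => False) h fun z hz => x ⟨z, hz⟩) (not_le.2 ?_)
  simpa [den, ind_neg not_false] using p

theorem den_two (h : S.Ok) {E : (ι → ℝ) → Prop} {Z : ℝ} (hZ : 0 ≤ Z)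
    (e : ∀ z, E (toR z) → S.mass (fce S F) ≤ 1 + exp (-Z)) : |den S F E| ≤ 2 := by
  rw [abs_of_nonneg (den_nonneg h)]
  by_contra x
  obtain ⟨z, hz⟩ := den_ex h (two_pos.trans (not_le.1 x))
  exact x ((P057PK.den_le h F E).trans ((e z hz).trans
    (by linarith [exp_le_one_iff.2 (neg_nonpos.2 hZ)])))

theorem wsum {Δ : Type} {wt f : Δ → ℝ} (h0 : ∀ D, 0 ≤ wt D) (hs : Summable wt) {C : ℝ}
    (hf : ∀ D, |f D| ≤ C) : Summable fun D => wt D * f D :=
  Summable.of_norm_bounded (hs.mul_right C) fun D => by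
    rw [Real.norm_eq_abs, abs_mul, abs_of_nonneg (h0 D)]
    exact mul_le_mul_of_nonneg_left (hf D) (h0 D)

/-- the pieces depend only on the raw coordinates -/
theorem piece_bi (h : S.Ok) {b : V} (hb : b ∈ F) {κ : Type} {ty : κ → Finset V}
    {ψ : κ → (ι → ℝ) → ℝ} {U : (ι → ℝ) → Prop} (hU : OnP (fce S F) U) {lam Y δ : ℝ} (hl : 1 ≤ lam)
    {P : (ι → ℝ) → (ι → ℝ) → Prop} (h1 : ∀ a z, P a (toR z) → U (toR z))
    (h2 : ∀ a, CH S F b ty ψ (P a) Y)
    (h3 : δ ≤ den (jt S b lam) (b2 F b) fun W => P (W ∘ cq S b 0) (pr S b 0 2 W)) :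
    ∃ Q, Bi (fce S F) Q ∧ (∀ a, CH S F b ty ψ (Q a) Y) ∧ δ ≤ den (jt S b lam) (b2 F b)
      fun W => Q (W ∘ cq S b 0) (pr S b 0 2 W) ∧ U (pr S b 0 2 W) := by
  refine ⟨fun a z => P (msk (fce S F) a) (msk (fce S F) z), fun _ _ _ _ e e' x => by
    beta_reduce; rwa [← msk_congr e, ← msk_congr e'], fun a => ?_, h3.trans (den_supp (ok_jt h b hl)
      fun W hW x => ?_)⟩
  · obtain ⟨ϱ, _, γ, Ψ, c, a1, a2⟩ := h2 (msk (fce S F) a)
    exact ⟨ϱ, _, γ, Ψ, c, a1, a2.sub le_rfl fun z hz => ⟨mix (fce S F) z 0,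
      fun i hi => by rw [← msk_toR, msk_pos _ hi], by rwa [← msk_toR]⟩⟩
  · have e : ∀ c, (c = 0 ∨ c = 2) → ∀ j ∉ fce S F, toR W (cq S b c j) = 0 := fun c hc j hj => by
      rw [toR_apply, hW _ (mt (P057LU.cq_q2 hb hc j).1 hj), Int.cast_zero]
    have e0 : msk (fce S F) (toR W ∘ cq S b 0) = toR W ∘ cq S b 0 := funext fun j => by
      by_cases hj : j ∈ fce S F
      exacts [msk_pos _ hj, (msk_neg _ hj).trans (e 0 (Or.inl rfl) j hj).symm]
    have e1 : msk (fce S F) (pr S b 0 2 (toR W)) = pr S b 0 2 (toR W) := funext fun j => by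
      by_cases hj : j ∈ fce S F
      · exact msk_pos _ hj
      · simp only [msk_neg _ hj, pr, mix, Function.comp, e 0 (Or.inl rfl) j hj,
          e 2 (Or.inr rfl) j hj, add_zero, ite_self]
    refine ⟨by beta_reduce; rwa [e0, e1], ?_⟩
    rw [← toR_pr] at x ⊢
    exact h1 _ _ x

theorem sel_num {t η D : ℝ} (h0 : 0 < t) (h1 : t ≤ 1 / 128) (hη : η ≤ t ^ 10) (hD : D * t ≤ 1) :
    t / 4 * (1 + η) + η + (η + 4 * D * t ^ 6) ≤ t - t / 4 := by
  have p5 : 0 < t ^ 5 := by positivity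
  have a0 : t ^ 5 ≤ 1 := pow_le_one₀ h0.le (by linarith)
  have a1 : η ≤ t ^ 5 := hη.trans (by nlinarith)
  have a2 : D * t ^ 6 ≤ t ^ 5 := by nlinarith
  have a6 : t ^ 5 ≤ t ^ 2 := pow_le_pow_of_le_one h0.le (by linarith) (by norm_num)
  nlinarith

/-- the points with a large share in one system -/
theorem pts (h : S.Ok) (hc : S.Cen) {b : V} (hb : b ∈ F) {U : (ι → ℝ) → Prop} {y Z : ℝ}
    (hy : 10 ≤ y) (hZ : 20 * y ≤ Z) (hD : (Fintype.card ι : ℝ) ≤ exp y) (hm : Mg S Z)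
    {Q : (ι → ℝ) → (ι → ℝ) → Prop} (hQ : Bi (fce S F) Q)
    (h3 : exp (-y) ≤ den (jt S b (exp Z)) (b2 F b)
      fun W => Q (W ∘ cq S b 0) (pr S b 0 2 W) ∧ U (pr S b 0 2 W)) :
    exp (-y) / 4 ≤ den S F fun x => U x ∧ exp (-y) / 4 ≤ shr S F b (exp Z) Q x := by
  have t0 := exp_pos (-y)
  have k := pairs_le h hc hb (one_le_exp (by linarith)) (pow_pos t0 6) (th_num hy hZ)
    (mg_jt h hc b (by linarith) le_rfl (by linarith) hm) hQ U (c := exp (-y) / 4) (by positivity)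
  linarith [sel_num (η := exp (-Z)) (D := Fintype.card ι) t0 (t_num hy)
    (by rw [← exp_nat_mul]; exact exp_le_exp.2 (by push_cast; linarith))
    ((mul_le_mul_of_nonneg_right hD t0.le).trans (by rw [← exp_add]; simp))]

end aux

theorem exp_two (x : ℝ) : exp (-(x + 2)) ≤ exp (-x) / 4 := by
  rw [le_div_iff₀ (by norm_num), show -x = -(x + 2) + 2 by ring, exp_add (-(x + 2))]
  exact mul_le_mul_of_nonneg_left (exp_num (n := 2) (by norm_num) (by norm_num)) (exp_pos _).le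

/-- one class on the family -/
theorem sel (hP : PIECE V) (c : ℕ) : ∃ a : ℕ, 1 ≤ a ∧ ∀ (Δ ι : Type) [Fintype ι] [DecidableEq ι]
    (S : Δ → MS V ι) (wt : Δ → ℝ) (B : Finset V) (b : V) (κ : Type) [Fintype κ]
    (ty : κ → Finset V) (Φ : Δ → κ → (ι → ℝ) → ℝ) (U : Δ → (ι → ℝ) → Prop) (y Z : ℝ),
    (∀ D, 0 ≤ wt D) → Summable wt → ∑' D, wt D ≤ 2 → (∀ D, (S D).Ok ∧ (S D).Cen) → 10 ≤ y →
    20 * y ^ a ≤ Z → b ∈ B → (∀ r, (ty r).Nonempty ∧ Disjoint (ty r) B) →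
    (∀ D r, Ty (S D) (ty r) B (Φ D r)) → (∀ D, OnP (fce (S D) B) (U D)) →
    (Fintype.card ι : ℝ) ≤ exp y → (Fintype.card κ : ℝ) ≤ y →
    (∀ D x, U D (toR x) → Mg (S D) (Z ^ a)) →
    (∀ μ, exp (y ^ c) ≤ μ → μ ≤ exp Z →
      exp (-y ^ c) ≤ ∑' D, wt D * den (jt (S D) b μ) (b4 B b) fun W => U D (pr (S D) b 0 2 W) ∧
        ∀ r, Nr (jt (S D) b μ) (a4 (ty r)) (b4 B b) (rel (S D) b fun _ => Φ D r) (exp (y ^ c)) W) →
    ∃ (U' : Δ → (ι → ℝ) → Prop) (Q : Δ → (ι → ℝ) → (ι → ℝ) → Prop),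
      (∀ D, OnP (fce (S D) B) (U' D)) ∧ (∀ D x, U' D x → U D x) ∧ (∀ D, Bi (fce (S D) B) (Q D)) ∧
      (∀ D x, U' D x → exp (-y ^ a) ≤ shr (S D) B b (exp Z) (Q D) x ∧
        ∀ u, CH (S D) B b ty (Φ D) (Q D u) (y ^ a)) ∧
      exp (-y ^ a) ≤ ∑' D, wt D * den (S D) B (U' D) := by
  obtain ⟨C, hC⟩ := hP
  have p1 : Pl fun y => y ^ c + y + 2 :=
    ((pl_id.pow (fun _ _ => by linarith) c).add pl_id).add (pl_const 2)
  have p2 := p1.pow (fun y _ => by positivity) (C + 1)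
  have p3 := (p2.pow (fun y _ => by positivity) C).add p2
  obtain ⟨a, a1, ha⟩ := (p3.add p3).add p3
  refine ⟨a + C, by omega, fun Δ ι _ _ S wt B b κ _ ty Φ U y Z w0 ws w2 hS hy hZ hb hty hΦ hU hD
    hκ hm hen => ?_⟩
  have y2 : 2 ≤ y := by linarith
  have k0 := (ha y y2).trans (pw_mono y2 (Nat.le_add_right a C))
  set Y := y ^ c + y + 2 with hY
  set Y' := Y ^ (C + 1) with hY'
  have c0 : 0 ≤ y ^ c := by positivity
  have Y2 : 2 ≤ Y := by linarith
  have e1 : Y ≤ Y' := le_pw Y2 (by omega)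
  have c1 : 0 ≤ Y' ^ C := pow_nonneg (by linarith) _
  set t := Y' ^ C + Y' with ht
  have z2 : 2 ≤ Z := by linarith
  have l1 : 1 ≤ exp Z := one_le_exp (by linarith)
  have z1 : Z ≤ Z ^ (a + C) := le_pw z2 (by omega)
  have m1 : 1 ≤ exp Y' := one_le_exp (by linarith)
  have k1 := hen (exp Y') (exp_le_exp.2 (by linarith)) (exp_le_exp.2 (by linarith))
  set dj : Δ → ℝ := fun D => den (jt (S D) b (exp Y')) (b4 B b) fun W => U D (pr (S D) b 0 2 W) ∧
    ∀ r, Nr (jt (S D) b (exp Y')) (a4 (ty r)) (b4 B b) (rel (S D) b fun _ => Φ D r)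
      (exp (y ^ c)) W with hdj
  have d2 : ∀ D, |dj D| ≤ 2 := fun D => den_two (ok_jt (hS D).1 b m1) (show 0 ≤ Z by linarith)
    fun W hW => mg_jt (hS D).1 (hS D).2 b (by linarith) (by linarith) (by linarith)
      ((hm D _ (toR_pr b W ▸ hW.1)).mono (hS D).1 (hS D).2 z1) _ (cls_fce _ _)
  have k2 : ∀ D, ∃ Q, Bi (fce (S D) B) Q ∧ (exp (-Y) ≤ dj D →
      (∀ u, CH (S D) B b ty (Φ D) (Q u) (Y' ^ C)) ∧ exp (-t) / 4 ≤ den (S D) B
        fun x => U D x ∧ exp (-t) / 4 ≤ shr (S D) B b (exp Z) Q x) := fun D => by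
    by_cases g : exp (-Y) ≤ dj D
    swap
    · exact ⟨fun _ _ => False, fun _ _ _ _ _ _ x => x, fun x => absurd x g⟩
    obtain ⟨W, hW⟩ := den_ex (ok_jt (hS D).1 b m1) ((exp_pos _).trans_le g)
    have m := hm D _ (toR_pr b W ▸ hW.1)
    obtain ⟨P, b1, b2, b3⟩ := hC ι (S D) B b κ ty (fun _ => Φ D) (U D) Y Y' Z (exp Z) (hS D).1
      (hS D).2 Y2 (pw_mono Y2 (by omega)) (by linarith) (exp_le_exp.2 (by linarith)) le_rfl hb hty
      (fun _ => hΦ D) (hU D) (hD.trans (exp_le_exp.2 (by linarith))) (by linarith)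
      (m.mono (hS D).1 (hS D).2 (pw_mono z2 (by omega))) (g.trans (den_mono (ok_jt (hS D).1 b m1)
        fun z hz => ⟨hz.1, fun r => (hz.2 r).mono (exp_le_exp.2 (by linarith))⟩))
    obtain ⟨Q, c1, c2, c3⟩ := piece_bi (hS D).1 hb (hU D) l1 b1 b2 b3
    exact ⟨Q, c1, fun _ => ⟨c2, pts (hS D).1 (hS D).2 hb (by linarith) (by linarith)
      (hD.trans (exp_le_exp.2 (by linarith))) (m.mono (hS D).1 (hS D).2 z1) c1
      ((exp_le_exp.2 (by linarith)).trans c3)⟩⟩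
  choose Q q1 q2 using k2
  have t0 := exp_pos (-t)
  have t3 := (exp_le_exp.2 (show -y ^ (a + C) ≤ -(3 * t) by linarith)).trans
    (t3_num (show 10 ≤ t by linarith))
  have t1 := t_num (show 10 ≤ t by linarith)
  refine ⟨fun D x => exp (-Y) ≤ dj D ∧ U D x ∧ exp (-t) / 4 ≤ shr (S D) B b (exp Z) (Q D) x, Q,
    fun D x x' e hx => ⟨hx.1, hU D x x' e hx.2.1, hx.2.2.trans_eq
      (on_shr (hS D).1 b _ (q1 D) x x' e)⟩, fun _ _ hx => hx.2.1, q1,
    fun D x hx => ⟨le_trans (by nlinarith) hx.2.2, fun u =>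
      ((q2 D hx.1).1 u).mono (by linarith) fun _ h => h⟩, ?_⟩
  have s1 := wsum w0 ws fun D => abs_ind (exp (-Y) ≤ dj D)
  have k3 := hasSum_le (fun D => show wt D * dj D ≤ wt D * exp (-Y) +
      2 * (wt D * ind (exp (-Y) ≤ dj D)) by
    rw [mul_left_comm, ← mul_add]
    refine mul_le_mul_of_nonneg_left ?_ (w0 D)
    by_cases g : exp (-Y) ≤ dj D
    · rw [ind_pos g]; linarith [le_abs_self (dj D), d2 D, exp_pos (-Y)]
    · rw [ind_neg g]; linarith) (wsum w0 ws d2).hasSum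
    ((ws.hasSum.mul_right _).add (s1.hasSum.mul_left 2))
  have k4 := hasSum_le (fun D => show exp (-t) / 4 * (wt D * ind (exp (-Y) ≤ dj D)) ≤
      wt D * den (S D) B fun x => exp (-Y) ≤ dj D ∧ U D x ∧
        exp (-t) / 4 ≤ shr (S D) B b (exp Z) (Q D) x by
    rw [mul_left_comm]
    refine mul_le_mul_of_nonneg_left ?_ (w0 D)
    by_cases g : exp (-Y) ≤ dj D
    · rw [ind_pos g, mul_one]
      exact (q2 D g).2.trans (den_mono (hS D).1 fun _ h => ⟨g, h⟩)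
    · rw [ind_neg g, mul_zero]; exact den_nonneg (hS D).1) (s1.hasSum.mul_left _)
    (wsum w0 ws fun D => den_two (hS D).1 (show 0 ≤ Z by linarith) fun z hz =>
      ((hm D z hz.2.1).mono (hS D).1 (hS D).2 z1).mass (hS D).1 (hS D).2 (by linarith)
        (cls_fce _ _)).hasSum
  refine le_trans (t3.trans ?_) k4
  have k5 := (exp_le_exp.2 (show -Y ≤ -(y ^ c + 2) by linarith)).trans (exp_two _)
  have k6 := exp_le_exp.2 (show -t ≤ -Y by linarith)
  have k7 := mul_le_mul_of_nonneg_right w2 (exp_pos (-Y)).le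
  have k8 : exp (-t) ≤ ∑' D, wt D * ind (exp (-Y) ≤ dj D) := by linarith
  nlinarith

theorem fin_num {Y : ℝ} {v m n C : ℕ} (hY : 10 ≤ Y) (hn : n ≤ v) (hC : v + m + 2 ≤ C) {y : ℝ}
    (hy : y ≤ Y ^ m) : 20 * (3 ^ n * (y + 2)) ≤ Y ^ C := by
  have h1 : (3 : ℝ) ^ n ≤ Y ^ v :=
    (pow_le_pow_left₀ (by norm_num) (by linarith) n).trans (pw_mono (by linarith) hn)
  have h2 : 1 ≤ Y ^ m := one_le_pow₀ (by linarith)
  have h3 := mul_le_mul_of_nonneg_left (show 100 ≤ Y ^ 2 by nlinarith) (zero_le_one.trans h2)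
  refine le_trans ?_ (pw_mono (by linarith) hC)
  rw [add_assoc, pow_add, pow_add, mul_left_comm]
  refine (mul_le_mul_of_nonneg_left (show _ ≤ Y ^ m * Y ^ 2 by linarith) (by positivity)).trans
    (mul_le_mul_of_nonneg_right h1 (by positivity))

theorem cover (V : Type) [Fintype V] [DecidableEq V] (hP : PIECE V) : P057SG.COVER V := by
  intro c
  obtain ⟨a, a1, ha⟩ := sel hP c
  obtain ⟨d, d1, hd⟩ := draw (V := V)
  set v := Fintype.card V with hv
  have m1 : 1 ≤ a ^ v := Nat.one_le_pow _ _ a1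
  refine ⟨v + a ^ v + d ^ v + a + 10, by omega, fun Δ ι _ _ S wt B κ _ ty Φ E Y Z k Gd w0 ws w2 hS
    hY hZ hty hΦ hE hD hκ hm hcl hdn hen => ?_⟩
  set C := v + a ^ v + d ^ v + a + 10 with hC
  have y0 : (v : ℝ) + 10 ≤ Y := le_trans (by exact_mod_cast (by omega : v + 10 ≤ C)) hY
  have v0 : (0 : ℝ) ≤ v := Nat.cast_nonneg _
  have y1 : 10 ≤ Y := by linarith
  have y2 : 2 ≤ Y := by linarith
  have z2 : 2 ≤ Z := y2.trans ((le_pw y2 (by omega)).trans hZ)
  have lv : ∀ R : Finset V, Y ≤ Y ^ a ^ R.card ∧ Y ^ a ^ R.card ≤ Y ^ a ^ v := fun R =>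
    ⟨le_pw y2 (Nat.one_le_pow _ _ a1), pw_mono y2 (Nat.pow_le_pow_right a1 (card_le_univ R))⟩
  have nm : ∀ R : Finset V, 20 * (3 ^ R.card * (Y ^ a ^ R.card + 2)) ≤ Y ^ C := fun R =>
    fin_num y1 (card_le_univ R) (by omega) (lv R).2
  have key : ∀ R : Finset V, R ⊆ B → ∃ (U : Δ → (ι → ℝ) → Prop)
      (P : Δ → V → (ι → ℝ) → (ι → ℝ) → Prop), (∀ D, OnP (fce (S D) B) (U D)) ∧
      (∀ D x, U D x → E D x) ∧ (∀ D b, Bi (fce (S D) B) (P D b)) ∧
      (∀ D x, U D x → ∀ b ∈ R, exp (-Y ^ a ^ R.card) ≤ shr (S D) B b (exp Z) (P D b) x ∧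
        ∀ u, CH (S D) B b ty (Φ D) (P D b u) (Y ^ a ^ R.card)) ∧
      exp (-Y ^ a ^ R.card) ≤ ∑' D, wt D * den (S D) B (U D) := fun R => by
    induction R using Finset.induction_on with
    | empty => exact fun _ => ⟨E, fun _ _ _ _ => False, hE, fun _ _ h => h,
        fun _ _ _ _ _ _ _ _ h => h, fun _ _ _ _ h => absurd h (notMem_empty _), by simpa using hdn⟩
    | insert b R hb ih =>
      intro hB
      obtain ⟨U, P, u1, u2, u3, u4, u5⟩ := ih ((subset_insert _ _).trans hB)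
      have e : (Y ^ a ^ R.card) ^ a = Y ^ a ^ (insert b R).card := by
        rw [card_insert_of_notMem hb, ← pow_mul, ← pow_succ]
      have p3 : (1 : ℝ) ≤ 3 ^ (insert b R).card := one_le_pow₀ (by norm_num)
      have e1 : Y ^ a ^ R.card ≤ Y ^ a ^ (insert b R).card :=
        pw_mono y2 (Nat.pow_le_pow_right a1 (card_le_card (subset_insert _ _)))
      obtain ⟨U', Q, q1, q2, q3, q4, q5⟩ := ha Δ ι S wt B b κ ty Φ U (Y ^ a ^ R.card) Z w0 ws w2
        hS (y1.trans (lv R).1) (by rw [e]; nlinarith [nm (insert b R), (lv (insert b R)).1])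
        (hB (mem_insert_self _ _)) hty hΦ u1 (hD.trans (exp_le_exp.2 (lv R).1))
        (hκ.trans (lv R).1) (fun D x hx => (hm D _ (u2 D _ hx)).1.mono (hS D).1 (hS D).2
          (pw_mono z2 (by omega))) fun μ m1 m2 => hen _ μ (lv R).1
        ((lv R).2.trans (pw_mono y2 (by omega))) m1 m2 b (hB (mem_insert_self _ _)) U u1
        (fun D x => u2 D _) u5
      rw [e] at q4 q5
      refine ⟨U', fun D => Function.update (P D) b (Q D), q1, fun D x h => u2 D x (q2 D x h),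
        fun D b' => ?_, fun D x hx b' hb' => ?_, q5⟩
      · beta_reduce
        by_cases e2 : b' = b
        · rw [e2, Function.update_self]; exact q3 D
        · rw [Function.update_of_ne e2]; exact u3 D b'
      · beta_reduce
        by_cases e2 : b' = b
        · rw [e2, Function.update_self]; exact q4 D x hx
        · rw [Function.update_of_ne e2]
          obtain ⟨r1, r2⟩ := u4 D x (q2 D x hx) b' ((mem_insert.1 hb').resolve_left e2)
          exact ⟨(exp_le_exp.2 (neg_le_neg e1)).trans r1, fun u => (r2 u).mono e1 fun _ h => h⟩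
  obtain ⟨U, P, u1, u2, u3, u4, u5⟩ := key B Subset.rfl
  set y := Y ^ a ^ B.card with hy
  obtain ⟨D, hD'⟩ : ∃ D, exp (-(y + 2)) ≤ den (S D) B (U D) := by
    by_contra x
    have x' : ∀ D, den (S D) B (U D) ≤ exp (-y) / 4 := fun D =>
      (not_le.1 fun h => x ⟨D, h⟩).le.trans (exp_two y)
    have := hasSum_le (fun D => mul_le_mul_of_nonneg_left (x' D) (w0 D))
      (wsum w0 ws fun D => (abs_of_nonneg (den_nonneg (hS D).1)).trans_le (x' D)).hasSum
      (ws.hasSum.mul_right _)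
    nlinarith [exp_pos (-y)]
  obtain ⟨z, hz⟩ := den_ex (hS D).1 ((exp_pos _).trans_le hD')
  obtain ⟨g1, g2⟩ := hm D _ (u2 D _ hz)
  have cb : B.card ≤ v := card_le_univ B
  have n1 := nm B
  have p3 : (1 : ℝ) ≤ 3 ^ B.card := one_le_pow₀ (by norm_num)
  have l1 := (lv B).1
  have n2 : 3 ^ B.card * (y + 2) ≤ Y ^ C := by nlinarith
  obtain ⟨X', φ, P', E', b1, b2, b3, b4, b5⟩ := hd ⟨ι, S D⟩ B κ ty (Φ D) (E D) Z (exp Y) Y
    (exp (-Y ^ C)) Z k (Gd D) (fun r => (hty r).2) (hcl D)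
    (le_sqrt_of_sq_le (by rw [← exp_nat_mul]; exact exp_le_exp.2 (by push_cast; nlinarith)))
    (by linarith) le_rfl B 0 ⟨ι, S D⟩ id (P D) (U D) (y + 2) Subset.rfl Chain.refl
    ((hcl D).down (by omega) g2) (fun z => u2 D _)
    ⟨(hS D).1, (hS D).2, hD.trans (exp_le_exp.2 (by linarith)), hΦ D, u3 D,
      fun b hb u => ((u4 D _ hz b hb).2 u).mono (by linarith) fun _ h => h, u1 D, hD',
      fun z hz b hb => (exp_le_exp.2 (by linarith)).trans (u4 D _ hz b hb).1,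
      fun b hb hb' => absurd hb hb'⟩ (by linarith) (n1.trans hZ) (exp_le_exp.2 (neg_le_neg n2))
    (g1.mono (hS D).1 (hS D).2 (pw_mono z2 ((Nat.pow_le_pow_right d1 cb).trans (by omega))))
  exact ⟨D, _, X', φ, E', by omega, b1, b2, b5.ok, b5.cen, b3, b5.card.trans (exp_le_exp.2 n2),
    b5.on, b4, (exp_le_exp.2 (neg_le_neg n2)).trans b5.dn, b5.fm,
    fun b hb => (b5.ch b hb (notMem_empty _)).mono n2 fun _ h => h⟩

end

end Vale.Agent.P057CR
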