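import Vale.Agent.P057CR.Stp

/-!
The chain of drawing steps.
-/

set_option linter.all false
set_option synthInstance.maxSize 1024

open Matrix Finset Real
open Vale.Agent.P267.H775 Vale.Agent.P057G Vale.Agent.P057MA
open Vale.Agent.P057T1 (ind)
open Vale.Agent.P057IV Vale.Agent.P057QP

namespace Vale.Agent.P057CR

noncomputable section

variable {V : Type} [Fintype V] [DecidableEq V]

/-- the state of the drawing: `R` is the set of classes that remain -/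
structure St (B : Finset V) (lam : ℝ) {κ : Type} (ty : κ → Finset V) (X : Sy V)
    (Φ : κ → (X.ι → ℝ) → ℝ) (P : V → (X.ι → ℝ) → (X.ι → ℝ) → Prop) (E : (X.ι → ℝ) → Prop)
    (R : Finset V) (y : ℝ) : Prop where
  ok : X.S.Ok
  cen : X.S.Cen
  card : (Fintype.card X.ι : ℝ) ≤ exp y
  fm : ∀ r, Ty X.S (ty r) B (Φ r)
  bi : ∀ b, Bi (fce X.S B) (P b)
  loc : ∀ b ∈ R, ∀ a, CH X.S B b ty Φ (P b a) y
  on : OnP (fce X.S B) E
  dn : exp (-y) ≤ den X.S B E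
  sh : ∀ z, E (toR z) → ∀ b ∈ R, exp (-y) ≤ shr X.S B b lam (P b) (toR z)
  ch : ∀ b ∈ B, b ∉ R → CH X.S B b ty Φ E y

theorem err_num {t η D k : ℝ} (h0 : 0 < t) (h1 : t ≤ 1 / 128) (hη0 : 0 ≤ η) (hη : η ≤ t ^ 10)
    (hD : D * t ≤ 1) (hk : k * t ≤ 1) :
    t * (η + 4 * D * t ^ 6) + (t ^ 5 / 2 * (1 + η) + η / t ^ 5) + (η + 16 * D * t ^ 6) ≤
      t / 2 * (48 * t ^ 4) ∧ t ^ 2 / 2 ≤ t * t - (η + 4 * D * t ^ 6) - k * (48 * t ^ 4) := by
  have p5 : 0 < t ^ 5 := by positivity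
  have p3 : 0 < t ^ 3 := by positivity
  have p2 : 0 < t ^ 2 := by positivity
  have a0 : t ^ 5 ≤ 1 := pow_le_one₀ h0.le (by linarith)
  have a1 : η ≤ t ^ 5 := hη.trans (by nlinarith)
  have a2 : D * t ^ 6 ≤ t ^ 5 := by nlinarith
  have a3 : η / t ^ 5 ≤ t ^ 5 := by rw [div_le_iff₀ p5]; nlinarith
  have a4 : k * t ^ 4 ≤ t ^ 3 := by nlinarith
  have a5 : t * (η + 4 * D * t ^ 6) ≤ 1 * (5 * t ^ 5) :=
    (mul_le_mul_of_nonneg_left (show _ ≤ 5 * t ^ 5 by linarith) h0.le).trans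
      (mul_le_mul_of_nonneg_right (by linarith) (by positivity))
  have a6 : t ^ 5 ≤ t ^ 3 := pow_le_pow_of_le_one h0.le (by linarith) (by norm_num)
  have a7 : t ^ 3 ≤ t ^ 2 / 128 := by nlinarith
  exact ⟨by nlinarith, by nlinarith⟩

theorem th_num {y L : ℝ} (hy : 10 ≤ y) (hL : 20 * y ≤ L) :
    1 + 1 / exp (-y) ^ 6 ≤ exp (-y) ^ 6 * exp L := by
  rw [← exp_nat_mul, one_div, ← exp_neg, ← exp_add]
  have h1 := add_one_le_exp (-(((6 : ℕ) : ℝ) * -y))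
  have h2 : 2 * exp (-(((6 : ℕ) : ℝ) * -y)) ≤ exp (((6 : ℕ) : ℝ) * -y + L) := by
    refine le_trans (mul_le_mul_of_nonneg_right (show 2 ≤ exp 1 by linarith [add_one_le_exp 1])
      (exp_pos _).le) ?_
    rw [← exp_add]
    exact exp_le_exp.2 (by push_cast; linarith)
  push_cast at h1 h2 ⊢
  linarith

theorem t_num {y : ℝ} (hy : 10 ≤ y) : exp (-y) ≤ 1 / 128 := by
  rw [exp_neg, ← one_div]
  exact one_div_le_one_div_of_le (by norm_num) (exp_num (n := 7) (by push_cast; linarith)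
    (by norm_num))

theorem t3_num {y : ℝ} (hy : 10 ≤ y) : exp (-(3 * y)) ≤ exp (-y) ^ 2 / 2 / 8 := by
  have h := t_num hy
  have p := exp_pos (-y)
  rw [show -(3 * y) = ((3 : ℕ) : ℝ) * -y by push_cast; ring, exp_nat_mul]
  nlinarith [pow_pos p 2]

theorem sq_exp {L Z : ℝ} (h0 : 0 ≤ L) (h : L ≤ Z) : 1 ≤ √(exp L) ∧ √(exp L) ≤ exp Z := by
  have h1 := one_le_exp h0
  exact ⟨one_le_sqrt.2 h1, (sqrt_le_iff.2 ⟨by linarith, by nlinarith⟩ : _ ≤ exp L).trans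
    (exp_le_exp.2 h)⟩

theorem mg_jt {ι : Type} [Fintype ι] [DecidableEq ι] {S : MS V ι} (h : S.Ok) (hc : S.Cen) (b : V)
    {L Z : ℝ} (h0 : 0 ≤ L) (hL : L ≤ Z) (hZ : 4 ≤ Z) (hs : Mg S Z) :
    ∀ M, Cls (jt S b (exp L)) M → (jt S b (exp L)).mass M ≤ 1 + exp (-Z) := fun _ hM =>
  mass_jt h hc b (one_le_exp h0) (sq_exp h0 hL).2
    (by rw [← Nat.cast_le (α := ℝ)]; push_cast; linarith [Nat.le_ceil Z]) hs hM

/-- one step -/
theorem step : ∃ c : ℕ, 1 ≤ c ∧ ∀ (X : Sy V) (B R : Finset V) (κ : Type) (ty : κ → Finset V)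
    (Φ : κ → (X.ι → ℝ) → ℝ) (P : V → (X.ι → ℝ) → (X.ι → ℝ) → Prop) (E : (X.ι → ℝ) → Prop) (a : V)
    (y L Z : ℝ) (Bad : (X.ι → ℤ) → Prop), a ∈ B → a ∉ R → (∀ r, Disjoint (ty r) B) →
    St B (exp L) ty X Φ P E (insert a R) y → (Fintype.card V : ℝ) + 10 ≤ y → 20 * y ≤ L → L ≤ Z →
    Mg X.S (Z ^ c) → (Mg (xt X.S (nw X.ι a √(exp L))) Z →
      ∑' o, X.S.wt (fce X.S {a}) o * ind (Bad o) ≤ exp (-(3 * y)) * vl X.S.G (fce X.S {a})) →
    ∃ (o : X.ι → ℤ) (E' : ((X.rf (nw X.ι a √(exp L)) o).ι → ℝ) → Prop), ¬ Bad o ∧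
      Mg (X.rf (nw X.ι a √(exp L)) o).S Z ∧
      (∀ z, E' (toR z) → E (mp X.S (nw X.ι a √(exp L)) o (toR z))) ∧
      St B (exp L) ty (X.rf (nw X.ι a √(exp L)) o)
        (fun r w => Φ r (mp X.S (nw X.ι a √(exp L)) o w))
        (fun b x w => P b (mp X.S (nw X.ι a √(exp L)) o x) (mp X.S (nw X.ι a √(exp L)) o w))
        E' R (3 * y) := by
  obtain ⟨c, hc⟩ := P057PK.pick (V := V)
  refine ⟨c + 4, by omega, fun X B R κ ty Φ P E a y L Z Bad ha hR hd hs hy hL hZ hm hb => ?_⟩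
  have v0 : (0 : ℝ) ≤ Fintype.card V := Nat.cast_nonneg _
  have y0 : 10 ≤ y := by linarith
  have z2 : 2 ≤ Z := by linarith
  have l0 : 0 ≤ L := by linarith
  have l1 := one_le_exp l0
  obtain ⟨q1, q2⟩ := sq_exp l0 hZ
  have t0 := exp_pos (-y)
  have t1 := t_num y0
  have e1 : Z ≤ Z ^ (c + 1) := le_pw z2 (by omega)
  have e2 : 8 * Z ^ (c + 1) ≤ Z ^ (c + 4) := by
    rw [show c + 4 = 3 + (c + 1) by omega, pow_add Z 3]
    exact mul_le_mul_of_nonneg_right (le_trans (by norm_num) (pow_le_pow_left₀ zero_le_two z2 3))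
      (by positivity)
  have g : Good X.S (nw X.ι a √(exp L)) B 1 (exp Z) 0 :=
    good_nw ha q1 q2 (one_le_exp (by linarith)) le_rfl
  have mx := P057PK.nwm X.ι X.S a _ (Z ^ (c + 1)) hs.ok hs.cen (z2.trans e1) q1
    (q2.trans (exp_le_exp.2 e1)) (hm.mono hs.ok hs.cen (by linarith))
  have ox := g.ok_xt le_rfl hs.ok
  have cx := g.cen_xt le_rfl hs.ok hs.cen
  obtain ⟨n1, n2⟩ := err_num (η := exp (-Z)) (D := Fintype.card X.ι) (k := R.card) t0 t1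
    (exp_pos _).le (by rw [← exp_nat_mul]; exact exp_le_exp.2 (by push_cast; linarith))
    ((mul_le_mul_of_nonneg_right hs.card t0.le).trans (by rw [← exp_add]; simp))
    ((mul_le_mul_of_nonneg_right (show _ ≤ exp y by
      have : (R.card : ℝ) ≤ Fintype.card V := by exact_mod_cast card_le_univ R
      linarith [add_one_le_exp y]) t0.le).trans (by rw [← exp_add]; simp))
  have k := step_den hs.ok hs.cen ha hR l1 (pow_pos t0 6) (th_num y0 hL) (pow_pos t0 5) t0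
    (mg_jt hs.ok hs.cen a l0 hZ (by linarith) (hm.mono hs.ok hs.cen (by linarith)))
    (fun b => mg_jt (ok_jt hs.ok a l1) (cen_jt hs.cen a _) (b, 0) l0 hZ (by linarith)
      (P057PK.jsm X.ι X.S a _ Z hs.ok hs.cen z2 l1 (exp_le_exp.2 hZ)
        (hm.mono hs.ok hs.cen (by linarith)))) n1 hs.bi E hs.sh
  have t3 := t3_num y0
  have p := (vl_pos hs.ok.pd (fce X.S {a})).le
  obtain ⟨o, o1, o2, o3⟩ := hc X.ι X.S (nw X.ι a √(exp L)) B B 1 (exp Z) 0 _ Bad (exp (-y) ^ 2 / 2)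
    Z hs.ok hs.cen g le_rfl Subset.rfl z2
    ((exp_le_exp.2 (show -Z ≤ -(3 * y) by linarith)).trans (by linarith [pow_pos t0 2]))
    (mx.mono ox cx (pw_mono z2 (by omega)))
    ((mul_le_mul_of_nonneg_right (n2.trans (by linarith [mul_le_mul_of_nonneg_left hs.dn t0.le]))
      p).trans k) ((hb (mx.mono ox cx e1)).trans (mul_le_mul_of_nonneg_right t3 p))
  have hφ := mph_mp hs.ok hs.cen g le_rfl o
  have o4 := g.ok_rf le_rfl hs.ok o
  have v2 : (2 : ℝ) ^ Fintype.card V ≤ exp (Fintype.card V) := exp_num le_rfl le_rfl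
  have bi : ∀ b, Bi (fce (rf X.S (nw X.ι a √(exp L)) o) B) fun x w =>
      P b (mp X.S (nw X.ι a √(exp L)) o x) (mp X.S (nw X.ι a √(exp L)) o w) :=
    fun b _ _ _ _ x x' => hs.bi b _ _ _ _ (hφ.agree x) (hφ.agree x')
  refine ⟨o, _, o1, o2, fun z hz => hz.1.2, o4, g.cen_rf le_rfl hs.ok hs.cen o,
    (card_rf g).trans ?_, fun r => hφ.ty (hd r) (hs.fm r), bi, fun b hb x =>
      ((hs.loc b (mem_insert_of_mem hb) _).pull hφ hs.ok hs.cen one_le_two Subset.rfl hd hs.fm v2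
        v0 (E' := fun w => P b (mp X.S _ o x) (mp X.S _ o w)) fun _ h => h).mono (by linarith)
      fun _ h => h, fun w w' e hw => ⟨⟨hs.bi a _ _ _ _
      (fun i hi => on_bv i w w' fun j hj =>
        e j (fce_mono ((erase_subset _ _).trans (mem_fce.1 hi)) hj)) (hφ.agree e) hw.1.1,
      hs.on _ _ (hφ.agree e) hw.1.2⟩, fun b hb => (hw.2 b hb).trans_eq
        (on_shr o4 b _ (bi b) w w' e)⟩, le_trans (by linarith [pow_pos t0 2]) o3,
    fun z hz b hb => le_trans (by nlinarith) (hz.2 b hb), fun b hb hb' => ?_⟩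
  · have := add_one_le_exp (2 * y)
    rw [show 3 * y = 2 * y + y by ring, exp_add]
    nlinarith [hs.card, exp_pos y]
  · by_cases e : b = a
    · subst e
      exact (ch_glue hs.ok hs.cen g le_rfl o hd hs.fm (by linarith)
        (hs.loc b (mem_insert_self _ _))).mono (by linarith) fun z hz => hs.bi b _ _ _ _
          (fun i hi => (msk_agree _ _ i hi).symm) (fun i hi => (msk_agree _ _ i hi).symm) hz.1.1
    · exact ((hs.ch b hb fun x => (mem_insert.1 x).elim e hb').pull hφ hs.ok hs.cen one_le_two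
        Subset.rfl hd hs.fm v2 v0 (E' := fun w => E (mp X.S _ o w)) fun _ h => h).mono
        (by linarith) fun _ h => h.1.2

/-- the chain -/
theorem draw : ∃ c : ℕ, 1 ≤ c ∧ ∀ (X0 : Sy V) (B : Finset V) (κ : Type) (ty : κ → Finset V)
    (Φ : κ → (X0.ι → ℝ) → ℝ) (E0 : (X0.ι → ℝ) → Prop) (L Λ Q ε Z : ℝ) (k : ℕ)
    (Gd : ℕ → (X' : Sy V) → ((X'.ι → ℝ) → X0.ι → ℝ) → Prop), (∀ r, Disjoint (ty r) B) →
    Clos B Λ (exp L) Q L ε X0 Gd → Λ ≤ √(exp L) → 0 ≤ Q → L ≤ Z →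
    ∀ (R : Finset V) (n : ℕ) (X : Sy V) (φ : (X.ι → ℝ) → X0.ι → ℝ)
      (P : V → (X.ι → ℝ) → (X.ι → ℝ) → Prop) (E : (X.ι → ℝ) → Prop) (y : ℝ), R ⊆ B →
      Chain B Λ (exp L) Q X0 n X φ → Gd (k + R.card) X φ → (∀ z, E (toR z) → E0 (φ (toR z))) →
      St B (exp L) ty X (fun r w => Φ r (φ w)) P E R y → (Fintype.card V : ℝ) + 10 ≤ y →
      20 * (3 ^ R.card * y) ≤ L → ε ≤ exp (-(3 ^ R.card * y)) → Mg X.S (Z ^ c ^ R.card) →
      ∃ (X' : Sy V) (φ' : (X'.ι → ℝ) → X0.ι → ℝ) (P' : V → (X'.ι → ℝ) → (X'.ι → ℝ) → Prop)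
        (E' : (X'.ι → ℝ) → Prop), Chain B Λ (exp L) Q X0 (n + R.card) X' φ' ∧ Gd k X' φ' ∧
        Mg X'.S Z ∧ (∀ z, E' (toR z) → E0 (φ' (toR z))) ∧
        St B (exp L) ty X' (fun r w => Φ r (φ' w)) P' E' ∅ (3 ^ R.card * y) := by
  obtain ⟨c, c1, hc⟩ := step (V := V)
  refine ⟨c, c1, fun X0 B κ ty Φ E0 L Λ Q ε Z k Gd hd hcl hΛ hQ hZ R => ?_⟩
  induction R using Finset.induction_on with
  | empty =>
    intro n X φ P E y _ h1 h2 h3 h4 _ _ _ h5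
    exact ⟨X, φ, P, E, h1, h2, by simpa using h5, h3, by simpa using h4⟩
  | insert a R hR ih =>
    intro n X φ P E y hB h1 h2 h3 h4 hy hL hε hm
    rw [card_insert_of_notMem hR] at h2 hL hε hm ⊢
    have v0 : (0 : ℝ) ≤ Fintype.card V := Nat.cast_nonneg _
    have p1 : (1 : ℝ) ≤ 3 ^ R.card := one_le_pow₀ (by norm_num)
    have e0 : (3 : ℝ) ^ (R.card + 1) * y = 3 ^ R.card * (3 * y) := by ring
    rw [e0] at hL hε ⊢
    have e1 : 3 * y ≤ 3 ^ R.card * (3 * y) := le_mul_of_one_le_left (by linarith) p1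
    have l0 : 0 ≤ L := by linarith
    have e2 : Z ≤ Z ^ c ^ R.card := le_pw (by linarith) (Nat.one_le_pow _ _ c1)
    have ha := hB (mem_insert_self a R)
    have g : Good X.S (nw X.ι a √(exp L)) B Λ (exp L) Q :=
      good_nw ha hΛ (sq_exp l0 le_rfl).2 (one_le_exp l0) hQ
    have g1 : Good X.S (nw X.ι a √(exp L)) B 1 (exp L) Q :=
      good_nw ha (sq_exp l0 le_rfl).1 (sq_exp l0 le_rfl).2 (one_le_exp l0) hQ
    obtain ⟨o, E', o1, o2, o3, o4⟩ := hc X B R κ ty _ P E a y L (Z ^ c ^ R.card)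
      (fun o => ¬ Gd (k + R.card) (X.rf (nw X.ι a √(exp L)) o) (φ ∘ mp X.S _ o)) ha hR hd h4 hy
      (by linarith) (hZ.trans e2) (by rwa [← pow_mul, ← pow_succ]) fun m =>
      (hcl.2 _ X φ _ h2 h4.ok h4.cen g (m.mono (g1.ok_xt le_rfl h4.ok)
        (g1.cen_xt le_rfl h4.ok h4.cen) (hZ.trans e2))).trans (mul_le_mul_of_nonneg_right
          (hε.trans (exp_le_exp.2 (by linarith))) (vl_pos h4.ok.pd _).le)
    obtain ⟨X', φ', P', E'', b1, b2⟩ := ih (n + 1) _ _ _ E' (3 * y)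
      ((subset_insert _ _).trans hB) (h1.step _ o g) (not_not.1 o1) (fun z hz => by
        obtain ⟨u, hu⟩ := (mph_mp h4.ok h4.cen g1 le_rfl o).int z
        have := o3 z hz
        rw [hu] at this
        exact (congrArg (fun x => E0 (φ x)) hu).mpr (h3 u this)) o4 (by linarith) hL hε o2
    exact ⟨X', φ', P', E'', by rwa [← add_assoc, add_right_comm], b2⟩

end

end Vale.Agent.P057CR
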