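import Vale.Agent.P057DP.Flp

/-!
Fibres over the image of a smaller test system.
-/

set_option linter.all false

open Matrix Finset Real
open Vale.Agent.P267.H775 Vale.Agent.P057G Vale.Agent.P057MA Vale.Agent.P057PC
open Vale.Agent.P057TP hiding ind
open Vale.Agent.P057GH Vale.Agent.P057DP

namespace Vale.Agent.P057CR

noncomputable section

variable {C W X X₁ : Type} {T : Tow} {cl : W → C} {m s : ℕ} {N : ℝ} [Fintype W] [DecidableEq W]
  [Fintype X] [DecidableEq X] [Fintype X₁] [DecidableEq X₁] (Z : Sys T W Unit) {O : Ov W X}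
  {O₁ : Ov W X₁} (σ : X → ℝ) {g : X₁ → X} (h : ∀ x, O.π (g x) = O₁.π x) (Q : X → Prop)
  {P P' : X → Prop}

/-- the expectation over the labels on `Q` that are not in the image -/
def fib (F : (LT T cl m O → ℤ) → ℝ) (y : LT T cl m O₁ → ℤ) : ℝ :=
  Fr (tst cl m Z O σ 1) (b0 T cl m O Unit Empty Q \ b0 T cl m O Unit Empty fun x => ∃ u, g u = x) F
    (Function.extend (lt h ()) y 0)

variable {Z σ h Q} {F F' : (LT T cl m O → ℤ) → ℝ}

theorem cl_b0 (hT : T.Ok s N) (hZ : Z.Ok) (hσ : ∀ x, 0 < σ x) (P : X → Prop) :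
    Cl (tst cl m Z O σ 1) (b0 T cl m O Unit Empty P) :=
  (dc_ms (cq_b0 P)).cl (lo_tst hT hZ hσ one_pos)

theorem mem_rg (h : ∀ x, O.π (g x) = O₁.π x) (hg : g.Injective) {l : LT T cl m O}
    (hl : l ∈ b0 T cl m O Unit Empty fun x => ∃ u, g u = x) :
    ∃ k ∈ b0 T cl m O₁ Unit Empty fun _ => True, lt h () k = l := by
  rw [← b0_image (h := h) (k := fun _ : Unit => ()) (t := (Empty.elim : Empty → Empty))
    (P₁ := fun _ => True) hg (fun _ _ _ => rfl) (by simp)] at hl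
  exact mem_image.1 hl

theorem lt_inj (h : ∀ x, O.π (g x) = O₁.π x) (hg : g.Injective) :
    (lt h () : LT T cl m O₁ → LT T cl m O).Injective :=
  lf_inj hg (fun _ _ _ => rfl) fun u : Empty => u.elim

theorem dp_fr (hT : T.Ok s N) (hZ : Z.Ok) (hσ : ∀ x, 0 < σ x) (hQ : ∀ u, Q (g u))
    (dF : Dp (b0 T cl m O Unit Empty Q) F) : Dp (b0 T cl m O Unit Empty fun x => ∃ u, g u = x)
      (Fr (tst cl m Z O σ 1)
        (b0 T cl m O Unit Empty Q \ b0 T cl m O Unit Empty fun x => ∃ u, g u = x) F) := by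
  have e := union_sdiff_of_subset (b0_mono (T := T) (cl := cl) (m := m) (O := O) (K := Unit)
    (S := Empty) (P := fun x => ∃ u, g u = x) (P' := Q) fun _ ⟨u, e⟩ => e ▸ hQ u)
  exact dp_Fr (e.symm ▸ cl_b0 hT hZ hσ Q) (e.symm ▸ dF)

theorem dp_fib (hT : T.Ok s N) (hZ : Z.Ok) (hσ : ∀ x, 0 < σ x) (hg : g.Injective)
    (hQ : ∀ u, Q (g u)) (dF : Dp (b0 T cl m O Unit Empty Q) F) :
    Dp (b0 T cl m O₁ Unit Empty fun _ => True) (fib Z σ h Q F) := fun y y' hy =>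
  dp_fr hT hZ hσ hQ dF _ _ fun l hl => by
    obtain ⟨k, a, rfl⟩ := mem_rg h hg hl
    rw [(lt_inj h hg).extend_apply, (lt_inj h hg).extend_apply, hy k a]

theorem bd_fib (hT : T.Ok s N) (hZ : Z.Ok) (hσ : ∀ x, 0 < σ x) (bF : Bd F) : Bd (fib Z σ h Q F) :=
  ((lo_tst hT hZ hσ one_pos).bd_Fr _ bF).imp fun _ k _ => k _

theorem fib_nonneg (hF : ∀ z, 0 ≤ F z) (y) : 0 ≤ fib Z σ h Q F y := Fr_nonneg hF _

theorem fib_mul (hg : g.Injective) {φ : (LT T cl m O₁ → ℤ) → ℝ}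
    (dφ : Dp (b0 T cl m O₁ Unit Empty fun _ => True) φ) (y) :
    fib Z σ h Q (fun z => φ (z ∘ lt h ()) * F z) y = φ y * fib Z σ h Q F y := by
  unfold fib
  rw [Fr_mul (q := b0 T cl m O Unit Empty fun x => ∃ u, g u = x) disjoint_sdiff F
    (dφ.comp fun l hl => lf_b0 (fun u _ => ⟨u, rfl⟩) hl), Function.extend_comp (lt_inj h hg)]

/-- the expectation over the union of two parts that are independent over the image -/
theorem er_fib (hT : T.Ok s N) (hZ : Z.Ok) (hσ : ∀ x, 0 < σ x) (hg : g.Injective) (b : C)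
    (hP : ∀ u, P (g u)) (hQ : ∀ u, Q (g u)) (h1 : ∀ x, P' x ↔ P x ∨ Q x)
    (h2 : ∀ x, P x → Q x → ∃ u, g u = x) (h3 : ∀ x, P' x → (∃ u, g u = x) ∨ cl (O.π x) = b)
    {Ψ : (LT T cl m O → ℤ) → ℝ} (bΨ : Bd Ψ) (dΨ : Dp (b0 T cl m O Unit Empty P) Ψ) (bF : Bd F)
    (dF : Dp (b0 T cl m O Unit Empty Q) F) :
    Er (tst cl m Z O σ 1) (b0 T cl m O Unit Empty P') (fun z => Ψ z * F z) =
      Er (tst cl m Z O σ 1) (b0 T cl m O Unit Empty P)
        fun z => Ψ z * fib Z σ h Q F (z ∘ lt h ()) := by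
  have lo := lo_tst (cl := cl) (m := m) (O := O) hT hZ hσ one_pos
  have d : Disjoint (b0 T cl m O Unit Empty P)
      (b0 T cl m O Unit Empty Q \ b0 T cl m O Unit Empty fun x => ∃ u, g u = x) :=
    disjoint_left.2 fun l a c => (mem_sdiff.1 c).2 (mem_b0.2 ⟨(mem_b0.1 a).1, fun x k =>
      h2 x ((mem_b0.1 a).2 x k) ((mem_b0.1 (mem_sdiff.1 c).1).2 x k)⟩)
  have e : b0 T cl m O Unit Empty P' = b0 T cl m O Unit Empty P ∪
      (b0 T cl m O Unit Empty Q \ b0 T cl m O Unit Empty fun x => ∃ u, g u = x) := by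
    refine Subset.antisymm (fun l hl => ?_) (union_subset (b0_mono fun x a => (h1 x).2 (Or.inl a))
      (sdiff_subset.trans (b0_mono fun x a => (h1 x).2 (Or.inr a))))
    obtain ⟨a, c⟩ := mem_b0.1 hl
    by_cases k : ∀ x, Sum.inl x ∈ l.fc → P x
    · exact mem_union_left _ (mem_b0.2 ⟨a, k⟩)
    push Not at k
    obtain ⟨x, k1, k2⟩ := k
    have n1 : ¬ ∃ u, g u = x := fun ⟨u, e⟩ => k2 (e ▸ hP u)
    refine mem_union_right _ (mem_sdiff.2 ⟨mem_b0.2 ⟨a, fun x' k' => by_contra fun n => ?_⟩,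
      fun n => n1 ((mem_b0.1 n).2 x k1)⟩)
    have e1 := (h3 x (c x k1)).resolve_left n1
    have e2 := (h3 x' (c x' k')).resolve_left fun ⟨u, e⟩ => n (e ▸ hQ u)
    obtain rfl : x = x' := Sum.inl_injective (l.2.2.1 k1 k' (congrArg some (e1.trans e2.symm)))
    exact ((h1 x).1 (c x k1)).elim k2 n
  have c0 := cl_b0 (cl := cl) (m := m) (O := O) hT hZ hσ P
  rw [e, lo.toTr.Er_split c0 (sat_of_union lo.pd.1 c0.sat (e ▸ (cl_b0 hT hZ hσ P').sat) d) d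
    (bΨ.mul bF)]
  congr 1
  funext z
  rw [Fr_mul d F dΨ]
  refine congrArg _ (dp_fr hT hZ hσ hQ dF _ _ fun l hl => ?_)
  obtain ⟨k, -, rfl⟩ := mem_rg h hg hl
  rw [(lt_inj h hg).extend_apply]
  rfl

theorem er_emb (hg : g.Injective) (hj : ∀ x, O.jk (g x) = O₁.jk x) {σ₁ : X₁ → ℝ}
    (hσ : ∀ x, σ (g x) = σ₁ x) (hP : ∀ x, P x ↔ ∃ u, g u = x) (f : (LT T cl m O₁ → ℤ) → ℝ) :
    Er (tst cl m Z O σ 1) (b0 T cl m O Unit Empty P) (fun z => f (z ∘ lt h ())) =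
      Er (tst cl m Z O₁ σ₁ 1) (b0 T cl m O₁ Unit Empty fun _ => True) f := by
  rw [← b0_image (h := h) (k := fun _ : Unit => ()) (t := (Empty.elim : Empty → Empty))
    (P₁ := fun _ => True) hg (fun _ _ _ => rfl) (by simpa using hP)]
  exact ((emb_tst h hg hj (fun x _ => hσ x) 1).mono subset_union_left).er f

/-- the expectation over `Q` as an expectation on the small system -/
theorem er_fib' (hT : T.Ok s N) (hZ : Z.Ok) (hσ : ∀ x, 0 < σ x) (hg : g.Injective) (b : C)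
    (hj : ∀ x, O.jk (g x) = O₁.jk x) {σ₁ : X₁ → ℝ} (hs : ∀ x, σ (g x) = σ₁ x)
    (hQ : ∀ u, Q (g u)) (h3 : ∀ x, Q x → (∃ u, g u = x) ∨ cl (O.π x) = b) (bF : Bd F)
    (dF : Dp (b0 T cl m O Unit Empty Q) F) :
    Er (tst cl m Z O σ 1) (b0 T cl m O Unit Empty Q) F =
      Er (tst cl m Z O₁ σ₁ 1) (b0 T cl m O₁ Unit Empty fun _ => True) (fib Z σ h Q F) := by
  have := er_fib (h := h) (P := fun x => ∃ u, g u = x) hT hZ hσ hg b (fun u => ⟨u, rfl⟩) hQ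
    (fun x => ⟨Or.inr, fun a => a.elim (fun ⟨u, e⟩ => e ▸ hQ u) id⟩) (fun _ a _ => a) h3
    (bd_const 1) (fun _ _ _ => rfl) bF dF
  simp only [one_mul] at this
  rw [this, er_emb hg hj hs fun _ => Iff.rfl]

end

end Vale.Agent.P057CR
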