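import Vale.Agent.P057DP.Pl2

/-!
One step of the chain as a statement.
-/

set_option linter.all false

open Matrix Finset Real
open Vale.Agent.P267.H775 Vale.Agent.P057G Vale.Agent.P057MA Vale.Agent.P057PC
open Vale.Agent.P057TP hiding ind
open Vale.Agent.P057GH Vale.Agent.P057DP

namespace Vale.Agent.P057CR

variable {C W E : Type}

/-- the vertex `l` -/
def DA (l : W) (x : E ⊕ W) : Prop := x = Sum.inr l

/-- the other vertices of the class `b` -/
def DB (cl : W → C) (b : C) (l : W) (x : E ⊕ W) : Prop := ∃ v, x = Sum.inr v ∧ cl v = b ∧ v ≠ l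

/-- a dense set of popular points contains many rectangles with additive forms -/
def RECT (s : ℕ) : Prop :=
  ∃ c : ℕ, 1 ≤ c ∧ ∀ (T : Tow) (N : ℝ) (C W E κ : Type) [DecidableEq C] [Fintype W] [DecidableEq W]
    [Fintype E] [DecidableEq E] [Fintype κ] [DecidableEq κ] (Z : Sys T W Unit) (cl : W → C) (m : ℕ)
    (πE : E → W) (σE : E → ℝ) (b : C) (y A ω : ℝ) (x : Sx T cl m κ)
    (U : (LT T cl m (px πE) → ℤ) → Prop) (l : W), cl l = b → En s N c m Z y A →
    (Fintype.card E : ℝ) ≤ y → (Fintype.card κ : ℝ) ≤ y → (∀ e, 1 ≤ σE e ∧ σE e ≤ exp A) →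
    1 ≤ ω → ω ≤ exp A → x.Ok (exp y * ω) → Dp (b0 T cl m (px πE) Unit Empty fun _ => True) U →
    (∀ z, U z → x.Pop Z (exp (-y)) (z ∘ ri πE)) →
    exp (-y) ≤ dn cl m Z (px πE) (Sum.elim σE fun _ => 1) (fun _ => True) U →
    exp (-y ^ c) ≤ dn cl m Z (px πE).dbl ((Sum.elim σE fun _ => 1) ∘ Prod.fst)
      (P2 (fun _ => True) fun v => DA l v ∨ DB cl b l v) fun z =>
        (∀ i j, U (z ∘ lt (g := cn (DA l) (DB cl b l) i j) (fun _ => rfl) ())) ∧
        ∀ a, NR cl m Z (px πE).dbl ω (P2 (fun _ => True) fun v => DA l v ∨ DB cl b l v)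
          (al4 (DA l) (DB cl b l) fun u => x.θ a (u ∘ ri πE)) (exp (y ^ c)) (toR z)

end Vale.Agent.P057CR
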