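import Vale.Agent.P057QP.Pas
import Vale.Agent.P057LU.Unf
import Vale.Agent.P057IV.Chart

/-!
The share of a point: the proportion of narrow displacements whose centre charts the point.
-/

set_option linter.all false

open Matrix Finset
open scoped Real
open Vale.Agent.P267.H775 Vale.Agent.P057G Vale.Agent.P057MA Vale.Agent.P057HU
open Vale.Agent.P057T1 Vale.Agent.P057IV Vale.Agent.P057QP
open Vale.Agent.P057PI (dup sg)

namespace Vale.Agent.P057CR

noncomputable section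

variable {V ι : Type} [Fintype V] [DecidableEq V] [Fintype ι] [DecidableEq ι] {S : MS V ι}

/-- mean value on a set of labels -/
def av (S : MS V ι) (q : Finset ι) (F : (ι → ℤ) → ℝ) : ℝ := (∑' z, S.wt q z * F z) / vl S.G q

theorem av_mono (h : S.Ok) (q : Finset ι) {F F' : (ι → ℤ) → ℝ} {C C' : ℝ} (a : ∀ z, |F z| ≤ C)
    (a' : ∀ z, |F' z| ≤ C') (e : ∀ z, F z ≤ F' z) : av S q F ≤ av S q F' :=
  div_le_div_of_nonneg_right (Summable.tsum_le_tsum
    (fun z => mul_le_mul_of_nonneg_left (e z) (MS.wt_nonneg _ _)) (h.summable_re _ a)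
    (h.summable_re _ a')) (vl_pos h.pd _).le

theorem av_mul (q : Finset ι) (c : ℝ) (F : (ι → ℤ) → ℝ) :
    av S q (fun z => c * F z) = c * av S q F := by
  simp only [av, mul_left_comm _ c, tsum_mul_left, mul_div_assoc]

theorem av_add (h : S.Ok) (q : Finset ι) {F F' : (ι → ℤ) → ℝ} {C C' : ℝ} (a : ∀ z, |F z| ≤ C)
    (a' : ∀ z, |F' z| ≤ C') : av S q (fun z => F z + F' z) = av S q F + av S q F' := by
  simp only [av, mul_add]
  rw [(h.summable_re _ a).tsum_add (h.summable_re _ a'), add_div]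

theorem av_one (q : Finset ι) : av S q (fun _ => 1) = S.mass q := by
  simp only [av, mul_one]; rfl

theorem av_image {V' ι' : Type} [Fintype V'] [DecidableEq V'] [Fintype ι'] [DecidableEq ι']
    {S' : MS V' ι'} {e : ι → ι'} {q : Finset ι} (he : Function.Injective e)
    (hG : ∀ i ∈ q, ∀ j ∈ q, S'.G (e i) (e j) = S.G i j)
    (hp : ∀ z, ∀ i ∈ q, S'.p z (e i) = S.p (z ∘ e) i) (F : (ι → ℤ) → ℝ) :
    av S' (q.image e) (fun z => F (z ∘ e)) = av S q F := by
  have := tsum_wt_image he hG hp F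
  simp only [smul_eq_mul] at this
  rw [av, this, vl_image he hG, av]

theorem av_cq0 (h : S.Ok) (b : V) (lam : ℝ) (q : Finset ι) (F : (ι → ℤ) → ℝ) :
    av (jt S b lam) (cps S b ![q, ∅, ∅, ∅]) (fun z => F (z ∘ cq S b 0)) = av S q F := by
  rw [cps_one]
  exact av_image (cp_inj _ _ _) (fun i _ j _ => G_cq0 h b lam i j) (fun z i _ => p_cp h _ z i) F

theorem av_cmp (h : S.Ok) (hc : S.Cen) {M : Finset ι} (hM : Sat S.G M)
    (φ : (ι → ℤ) ≃ (ι → ℤ)) {δ η : ℝ} (hδ : 0 ≤ δ) (hm : S.mass M ≤ 1 + η)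
    (h0 : ∀ z, (∀ i, i ∉ M → z i = 0) → ∀ i, i ∉ M → φ z i = 0)
    (h1 : ∀ z, ln2 S M (toR (φ z)) ≤ (1 + δ) * ln2 S M (toR z)) {F : (ι → ℤ) → ℝ}
    (F0 : ∀ z, 0 ≤ F z) (F1 : ∀ z, F z ≤ 1) :
    av S M (fun z => F (φ z)) ≤ av S M F + (η + M.card * δ) := by
  have p := vl_pos h.pd M
  rw [av, av, div_add' _ _ _ p.ne']
  exact div_le_div_of_nonneg_right (cmp_sum h hc hM φ hδ hm h0 h1 F0 F1) p.le

theorem av_shear (h : S.Ok) (hc : S.Cen) (b : V) {lam δ η : ℝ} (hl : 1 ≤ lam) (hδ : 0 < δ)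
    (hd : 1 + 1 / δ ≤ δ * lam) {q : Finset ι} (hq : Cls S q)
    (hm : ∀ M, Cls (jt S b lam) M → (jt S b lam).mass M ≤ 1 + η) {n : ℤ} (hn : n ^ 2 ≤ 1)
    {F : (BI S.fc (0 : Fin 4) → ℤ) → ℝ} (F0 : ∀ W, 0 ≤ F W) (F1 : ∀ W, F W ≤ 1) :
    av (jt S b lam) (cps S b ![q, ∅, q, ∅]) (fun W => F (sh S b n W)) ≤
      av (jt S b lam) (cps S b ![q, ∅, q, ∅]) F + (η + 4 * Fintype.card ι * δ) := by
  have p := vl_pos (ok_jt h b hl).pd (cps S b ![q, ∅, q, ∅])
  have hρ : ∀ c, Cls S ((![q, ∅, q, ∅] : Fin 4 → Finset ι) c) := fun c => by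
    fin_cases c
    exacts [hq, cls_empty S, hq, cls_empty S]
  rw [av, av, div_add' _ _ _ p.ne']
  exact div_le_div_of_nonneg_right
    (shear h hc b hl hδ hd hρ rfl (hm _ (cls_cps b lam hρ)) hn F0 F1) p.le

/-- the normalised mean over the displacement -/
def kn (S : MS V ι) (b : V) (lam : ℝ) (γ : (ι → ℤ) → (ι → ℤ) → ℝ) (a : Finset ι) (y : ι → ℤ) :
    ℝ := km S b lam γ a y / vl (√lam ^ 2 • S.G) (a ∩ S.st b)

theorem kn_bdd (h : S.Ok) (b : V) {lam : ℝ} (hl : 1 ≤ lam) {γ : (ι → ℤ) → (ι → ℤ) → ℝ}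
    (γ2 : ∀ y x, |γ y x| ≤ 1) (a : Finset ι) : ∃ C, ∀ y, |kn S b lam γ a y| ≤ C := by
  have h' := ok_nar h (W := √lam) (Real.sqrt_pos.2 (by linarith)).ne'
  obtain ⟨C, hC⟩ := P057LU.wt_bdd (V := V) h'.pd
  have p := vl_pos h'.pd (a ∩ S.st b)
  refine ⟨C / vl (√lam ^ 2 • S.G) (a ∩ S.st b), fun y => ?_⟩
  rw [kn, abs_div, abs_of_pos (show 0 < vl (√lam ^ 2 • S.G) (a ∩ S.st b) from p)]
  refine div_le_div_of_nonneg_right (le_trans ?_
    (hC ((nar S √lam).frz {b} (toR y)) rfl (h'.frz _ _) (a ∩ S.st b))) p.le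
  refine (Real.norm_eq_abs _).ge.trans (tsum_of_norm_bounded
    ((h'.frz _ _).summable _).hasSum fun x => ?_)
  rw [Real.norm_eq_abs, abs_mul, kf, abs_of_nonneg (MS.wt_nonneg _ _)]
  exact mul_le_of_le_one_right (MS.wt_nonneg _ _) (γ2 _ _)

theorem av_kn (h : S.Ok) (b : V) {lam : ℝ} (hl : 1 ≤ lam) {q a r : Finset ι} (ha : a ⊆ q)
    {γ : (ι → ℤ) → (ι → ℤ) → ℝ} (γ2 : ∀ y x, |γ y x| ≤ 1) (hγ : Raw S b r γ)
    {e : (ι → ℤ) → ℝ} (he : ∀ y, |e y| ≤ 1) :
    av S q (fun y => kn S b lam γ a y * e y) = av (jt S b lam) (cps S b ![q, ∅, a, ∅])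
      fun W => γ (W ∘ cq S b 0) (W ∘ cq S b 2) * e (W ∘ cq S b 0) := by
  have hJ := ok_jt h b hl
  have u2 : Function.update ![q, ∅, a, ∅] 2 ∅ = ![q, ∅, ∅, ∅] := by
    funext c; fin_cases c <;> rfl
  have k := (peel_km h b hl (ρ := ![q, ∅, a, ∅]) (c := 2) (by decide) ha rfl hγ
    (f := fun W => e (W ∘ cq S b 0)) (fun x ω => by rw [mix_cq_ne (by decide)])
    (hJ.summable_re _ fun W => by
      rw [abs_mul]; exact mul_le_one₀ (γ2 _ _) (abs_nonneg _) (he _))).tsum_eq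
  rw [← av_cq0 h b lam, av, av, vl_peel h b hl (ρ := ![q, ∅, a, ∅]) (c := 2) (by decide) ha rfl,
    ← k, u2, ← div_div]
  congr 1
  rw [← tsum_div_const]
  refine tsum_congr fun W => ?_
  rw [kn, mul_div_assoc, mul_div_right_comm]; rfl

/-- the centre of the point `y` with displacement `x` -/
def cn (S : MS V ι) (b : V) (y x : ι → ℝ) : ι → ℝ := mix (S.st b) (y - x) y

/-- the share of a point -/
def shr (S : MS V ι) (F : Finset V) (b : V) (lam : ℝ) (P : (ι → ℝ) → (ι → ℝ) → Prop)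
    (y : ι → ℝ) : ℝ := (∑' x, kf S b √lam (fce S F) y x * ind (P (cn S b y (toR x)) y)) /
      vl (√lam ^ 2 • S.G) (fce S F ∩ S.st b)

/-- the indicator in terms of point and displacement -/
def gm (S : MS V ι) (b : V) (P : (ι → ℝ) → (ι → ℝ) → Prop) (y x : ι → ℤ) : ℝ :=
  ind (P (cn S b (toR y) (toR x)) (toR y))

theorem shr_eq (F : Finset V) (b : V) (lam : ℝ) (P : (ι → ℝ) → (ι → ℝ) → Prop) (y : ι → ℤ) :
    shr S F b lam P (toR y) = kn S b lam (gm S b P) (fce S F) y := rfl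

/-- relations that depend only on the coordinates in `q` -/
def Bi (q : Finset ι) (P : (ι → ℝ) → (ι → ℝ) → Prop) : Prop :=
  ∀ a a' y y', (∀ i ∈ q, a i = a' i) → (∀ i ∈ q, y i = y' i) → P a y → P a' y'

theorem Bi.ind {q : Finset ι} {P : (ι → ℝ) → (ι → ℝ) → Prop} (h : Bi q P) {a a' y y' : ι → ℝ}
    (e : ∀ i ∈ q, a i = a' i) (e' : ∀ i ∈ q, y i = y' i) : ind (P a y) = ind (P a' y') :=
  congrArg P057T1.ind (propext ⟨h _ _ _ _ e e',
    h _ _ _ _ (fun i hi => (e i hi).symm) fun i hi => (e' i hi).symm⟩)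

theorem cn_congr {b : V} {y y' x x' : ι → ℝ} {j : ι} (e : y j = y' j)
    (e' : j ∈ S.st b → x j = x' j) : cn S b y x j = cn S b y' x' j := by
  by_cases hj : j ∈ S.st b
  · simp only [cn, mix_pos _ _ hj, Pi.sub_apply, e, e' hj]
  · simp only [cn, mix_neg _ _ hj, e]

theorem raw_gm {q : Finset ι} {b : V} {P : (ι → ℝ) → (ι → ℝ) → Prop} (h : Bi q P) :
    Raw S b q (gm S b P) := fun _ _ _ _ a a' =>
  h.ind (fun j hj => cn_congr (congrArg Int.cast (a j hj))
    fun e => congrArg Int.cast (a' j hj e)) fun j hj => congrArg Int.cast (a j hj)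

theorem on_shr (h : S.Ok) {F : Finset V} (b : V) (lam : ℝ) {P : (ι → ℝ) → (ι → ℝ) → Prop}
    (hP : Bi (fce S F) P) : On (fce S F) (shr S F b lam P) := fun y y' e => by
  unfold shr
  congr 2
  funext x
  rw [hP.ind (fun j hj => cn_congr (e j hj) fun _ => rfl) e]
  congr 1
  have e2 : (nar S √lam).sts {b} = S.st b := sts_single _
  refine MS.wt_congr (S := (nar S √lam).frz {b} y') (S' := (nar S √lam).frz {b} y) rfl
    (fun z i hi => ?_) x
  rw [MS.frz_p_pos _ _ (e2 ▸ (mem_inter.1 hi).2), MS.frz_p_pos _ _ (e2 ▸ (mem_inter.1 hi).2)]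
  refine cls_p h (cls_fce S F) (fun j hj => ?_) (mem_inter.1 hi).1
  simp only [mix, e j hj]

theorem toR_pr (b : V) (W : BI S.fc (0 : Fin 4) → ℤ) :
    toR (pr S b 0 2 W) = pr S b 0 2 (toR W) := by
  rw [← sh_one, ← sh_one, ← toR_sh]; rfl

theorem cn_cq (b : V) (W : BI S.fc (0 : Fin 4) → ℝ) :
    cn S b (W ∘ cq S b 0) (W ∘ cq S b 2) = sh S b (-1) W ∘ cq S b 0 := by
  funext j
  by_cases hj : j ∈ S.st b
  · simp only [cn, mix_pos _ _ hj, Function.comp, sh_cq _ _ hj, Pi.sub_apply, neg_smul, one_smul,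
      sub_eq_add_neg, Pi.add_apply, Pi.neg_apply]
  · simp only [cn, mix_neg _ _ hj, Function.comp, sh_ne _ _ (Or.inr hj)]

theorem gm_sh (b : V) (P : (ι → ℝ) → (ι → ℝ) → Prop) (A : (ι → ℝ) → Prop)
    (W : BI S.fc (0 : Fin 4) → ℤ) :
    gm S b P (W ∘ cq S b 0) (W ∘ cq S b 2) * ind (A (toR (W ∘ cq S b 0))) =
      ind (P (toR (sh S b (-1) W) ∘ cq S b 0) (pr S b 0 2 (toR (sh S b (-1) W))) ∧
        A (pr S b 0 2 (toR (sh S b (-1) W)))) := by
  rw [toR_sh, pr_sh, ← cn_cq, ind_and]; rfl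

section one

variable (h : S.Ok) (hc : S.Cen) {F : Finset V} {b : V} (hb : b ∈ F) {lam θ η : ℝ} (hl : 1 ≤ lam)
  (hθ : 0 < θ) (hd : 1 + 1 / θ ≤ θ * lam)
  (hm : ∀ M, Cls (jt S b lam) M → (jt S b lam).mass M ≤ 1 + η)
  {P : (ι → ℝ) → (ι → ℝ) → Prop} (hP : Bi (fce S F) P) (A : (ι → ℝ) → Prop)

include h hc hb hl hθ hd hm hP

/-- many pairs over a set of points with large share -/
theorem pairs_ge {β : ℝ} (hβ : ∀ y, A (toR y) → β ≤ shr S F b lam P (toR y)) :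
    β * den S F A ≤ den (jt S b lam) (b2 F b) (fun W => P (W ∘ cq S b 0) (pr S b 0 2 W) ∧
      A (pr S b 0 2 W)) + (η + 4 * Fintype.card ι * θ) := by
  obtain ⟨C, hC⟩ := kn_bdd h b hl (γ := gm S b P) (fun _ _ => abs_ind _) (fce S F)
  have k1 := av_kn h b hl (Subset.refl (fce S F)) (γ := gm S b P) (fun _ _ => abs_ind _) (raw_gm hP)
    (e := fun y => ind (A (toR y))) fun _ => abs_ind _
  simp only [gm_sh] at k1
  have k2 := av_shear h hc b hl hθ hd (cls_fce S F) hm (n := -1) (by norm_num)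
    (F := fun W => ind (P (toR W ∘ cq S b 0) (pr S b 0 2 (toR W)) ∧ A (pr S b 0 2 (toR W))))
    (fun _ => ind_nonneg _) fun _ => ind_le _
  rw [← k1, ← fce_b2 hb lam] at k2
  refine le_trans ((av_mul _ β _).ge.trans (av_mono h _ (C := |β|) (C' := C) (fun y => ?_)
    (fun y => ?_) fun y => ?_)) k2
  · rw [abs_mul]; exact mul_le_of_le_one_right (abs_nonneg _) (abs_ind _)
  · rw [abs_mul]; exact (mul_le_of_le_one_right (abs_nonneg _) (abs_ind _)).trans (hC y)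
  · by_cases a : A (toR y)
    · exact mul_le_mul_of_nonneg_right (hβ y a) (ind_nonneg _)
    · rw [ind_neg a, mul_zero, mul_zero]

/-- many points with large share below a dense set of pairs -/
theorem pairs_le {c : ℝ} (h0 : 0 ≤ c) :
    den (jt S b lam) (b2 F b) (fun W => P (W ∘ cq S b 0) (pr S b 0 2 W) ∧ A (pr S b 0 2 W)) ≤
      den S F (fun y => A y ∧ c ≤ shr S F b lam P y) +
        (c * (1 + η) + η + (η + 4 * Fintype.card ι * θ)) := by
  have hJ := ok_jt h b hl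
  obtain ⟨C, hC⟩ := kn_bdd h b hl (γ := gm S b P) (fun _ _ => abs_ind _) (fce S F)
  have hC' : ∀ (y) (p : Prop), |kn S b lam (gm S b P) (fce S F) y * ind p| ≤ C := fun y p => by
    rw [abs_mul]; exact (mul_le_of_le_one_right (abs_nonneg _) (abs_ind _)).trans (hC y)
  have k1 := av_kn h b hl (Subset.refl (fce S F)) (γ := gm S b P) (fun _ _ => abs_ind _) (raw_gm hP)
    (e := fun y => ind (A (toR y))) fun _ => abs_ind _
  have k2 := av_shear h hc b hl hθ hd (cls_fce S F) hm (n := 1) (by norm_num)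
    (F := fun W => gm S b P (W ∘ cq S b 0) (W ∘ cq S b 2) * ind (A (toR (W ∘ cq S b 0))))
    (fun _ => mul_nonneg (ind_nonneg _) (ind_nonneg _))
    fun _ => mul_le_one₀ (ind_le _) (ind_nonneg _) (ind_le _)
  rw [← k1] at k2
  simp only [gm_sh, sh_sh, neg_add_cancel, add_neg_cancel, sh_zero] at k2
  rw [← fce_b2 hb lam] at k2
  have k3 := av_kn h b hl (Subset.refl (fce S F)) (γ := gm S b P) (fun _ _ => abs_ind _) (raw_gm hP)
    (e := fun y => ind (A (toR y) ∧ c ≤ shr S F b lam P (toR y))) fun _ => abs_ind _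
  have hM : ∀ a : Finset ι, Cls S a → Cls (jt S b lam) (cps S b ![fce S F, ∅, a, ∅]) :=
    fun a ha => cls_cps b lam fun c => by
      fin_cases c
      exacts [cls_fce S F, cls_empty S, ha, cls_empty S]
  have e1 : (jt S b lam).sts {(b, 2)} = (blow S 0).st (b, 2) := sts_single _
  have k4 := (raw_sum hJ (cen_jt hc b lam) ((hM _ (cls_fce S F)).sat hJ) {(b, 2)}
    (hm _ (hM _ (cls_fce S F)))
    (Γ := fun W => ind (A (toR (W ∘ cq S b 0)) ∧ c ≤ shr S F b lam P (toR (W ∘ cq S b 0))))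
    (fun _ => ind_nonneg _) (fun _ => ind_le _) fun x y => by
      rw [e1, mix_cq_ne (by decide)]).2
  rw [e1, cps_del b (ρ := ![fce S F, ∅, fce S F, ∅]) (c := 2) (by decide) Subset.rfl,
    show Function.update ![fce S F, ∅, fce S F, ∅] 2 ∅ = ![fce S F, ∅, ∅, ∅] by
      funext c; fin_cases c <;> rfl] at k4
  have k5 := av_cq0 h b lam (fce S F) fun y => ind (A (toR y) ∧ c ≤ shr S F b lam P (toR y))
  have k6 : av (jt S b lam) (cps S b ![fce S F, ∅, fce S F, ∅]) _ ≤ _ := (av_mono hJ _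
    (fun W => by rw [abs_mul]; exact mul_le_one₀ (abs_ind _) (abs_nonneg _) (abs_ind _))
    (fun _ => abs_ind _) fun W => mul_le_of_le_one_left (ind_nonneg _) (ind_le
      (P (cn S b (toR (W ∘ cq S b 0)) (toR (W ∘ cq S b 2))) (toR (W ∘ cq S b 0))))).trans k4
  have k7 := hm _ (hM _ (cls_empty S))
  rw [← av_one, show av (jt S b lam) (cps S b ![fce S F, ∅, ∅, ∅]) (fun _ => 1) = _ from
    av_cq0 h b lam (fce S F) fun _ => 1] at k7
  have k8 := av_mono h (fce S F) (fun y => hC' y (A (toR y))) (C' := |c| + C)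
    (F' := fun y => c * 1 + kn S b lam (gm S b P) (fce S F) y *
      ind (A (toR y) ∧ c ≤ shr S F b lam P (toR y)))
    (fun y => (abs_add_le _ _).trans (add_le_add (by rw [mul_one]) (hC' _ _))) fun y => by
      by_cases a : c ≤ shr S F b lam P (toR y)
      · rw [eq_true a, and_true]; linarith
      · rw [ind_neg (p := _ ∧ _) fun x => a x.2, mul_zero, add_zero]
        exact mul_le_mul (not_le.1 a).le (ind_le _) (ind_nonneg _) h0
  rw [av_add h _ (C := |c|) (fun _ => by rw [mul_one]) (fun y => hC' y _), av_mul, k3] at k8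
  refine k2.trans ?_
  have k9 := mul_le_mul_of_nonneg_left k7 h0
  change _ ≤ av (jt S b lam) (cps S b ![fce S F, ∅, ∅, ∅]) _ + η at k6
  rw [k5] at k6
  have k10 := k8.trans (add_le_add k9 k6)
  change _ ≤ av S (fce S F) (fun y => ind (A (toR y) ∧ c ≤ shr S F b lam P (toR y))) + _
  linarith

end one

end

end Vale.Agent.P057CR
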