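import Vale.Agent.P057CR.Two
import Vale.Agent.P057PK.Pick
import Vale.Agent.P057IV.Tr

/-!
One drawing step: the share on the refined system, and the mean density of the new set.
-/

set_option linter.all false
set_option synthInstance.maxSize 1024

open Matrix Finset
open scoped Real
open Vale.Agent.P267.H775 Vale.Agent.P057G Vale.Agent.P057MA Vale.Agent.P057HU
open Vale.Agent.P057T1 Vale.Agent.P057IV Vale.Agent.P057QP
open Vale.Agent.P057PI (dup sg)

namespace Vale.Agent.P057CR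

noncomputable section

variable {V ι : Type} [Fintype V] [DecidableEq V] [Fintype ι] [DecidableEq ι] {S : MS V ι}

/-- the configuration of the joint system with centre `x` and point `y` -/
def wj (S : MS V ι) (a : V) (x y : ι → ℝ) (i : BI S.fc (0 : Fin 4)) : ℝ :=
  if i.1.2 a = 2 then y i.1.1 - x i.1.1 else x i.1.1

theorem wj_zero (a : V) (x y : ι → ℝ) (j : ι) : wj S a x y (cq S a 0 j) = x j := by
  refine if_neg ?_
  by_cases hj : j ∈ S.st a
  · rw [cq_w hj]; decide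
  · exact cq_nw hj 0

theorem wj_two (a : V) (x y : ι → ℝ) (j : ι) :
    wj S a x y (cq S a 2 j) = if j ∈ S.st a then y j - x j else x j := by
  split_ifs with hj
  exacts [if_pos (cq_w hj 2), if_neg (cq_nw hj 2)]

theorem wj_self {F : Finset V} {a : V} (ha : a ∈ F) (lam : ℝ) (W : BI S.fc (0 : Fin 4) → ℝ) :
    ∀ i ∈ fce (jt S a lam) (b2 F a), wj S a (W ∘ cq S a 0) (pr S a 0 2 W) i = W i := fun i hi => by
  obtain ⟨j, -, rfl | rfl⟩ := (mem_fce_b2 ha lam).1 hi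
  · exact wj_zero a _ _ j
  · rw [wj_two]
    split_ifs with hj
    · rw [pr, mix_pos _ _ hj, Function.comp, add_sub_cancel_left]
    · rw [cq_out hj 2 0]; rfl

/-- the labels of the refined system inside the joint system -/
def em (S : MS V ι) (a : V) (μ : ℝ) : (ι ⊕ (nw ι a μ).X) ⊕ Lk S (nw ι a μ).b → BI S.fc (0 : Fin 4) :=
  Sum.elim (Sum.elim (cq S a 2) Empty.elim) fun l => cq S a 0 l.1

theorem em_inj (a : V) (μ : ℝ) : Function.Injective (em S a μ) := by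
  have key : ∀ (i : ι) (l : Lk S a), cq S a 2 i ≠ cq S a 0 l.1 := fun i l e =>
    absurd ((cq_st 2 0 i).1 (e ▸ (cq_st 0 0 l.1).2 ⟨S.mem_st.2 l.2.1, rfl⟩)).2 (by decide)
  rintro ((i | i) | i) ((j | j) | j) e
  · rw [cp_inj _ _ _ e]
  · exact j.elim
  · exact absurd e (key i j)
  · exact i.elim
  · exact i.elim
  · exact i.elim
  · exact absurd e.symm (key j i)
  · exact j.elim
  · rw [Subtype.ext (cp_inj _ _ _ e)]

section ide

variable {a b : V} {μ : ℝ} {o : ι → ℤ}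

theorem st_inl (j : ι) : Sum.inl (Sum.inl j) ∈ (rf S (nw ι a μ) o).st b ↔ j ∈ S.st b := by
  rw [MS.mem_st, MS.mem_st]; rfl

theorem st_inr (hb : a ≠ b) (l : Lk S (nw ι a μ).b) :
    Sum.inr l ∈ (rf S (nw ι a μ) o).st b ↔ l.1 ∈ S.st b := by
  rw [MS.mem_st, MS.mem_st, fc_inr, mem_erase]
  exact and_iff_right hb.symm

theorem fce_inl {F : Finset V} (j : ι) :
    Sum.inl (Sum.inl j) ∈ fce (rf S (nw ι a μ) o) F ↔ j ∈ fce S F := by
  rw [mem_fce, mem_fce]; rfl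

theorem pr_of {Z : BI S.fc (0 : Fin 4) → ℝ} {w : (ι ⊕ (nw ι a μ).X) ⊕ Lk S (nw ι a μ).b → ℝ}
    (e0 : Z ∘ cq S a 0 = bv S (nw ι a μ) o w) (e2 : Z ∘ cq S a 2 = cw w) :
    pr S a 0 2 Z = mp S (nw ι a μ) o w := by
  funext j
  by_cases hj : j ∈ S.st a
  · rw [pr, mix_pos _ _ hj, mp_in (S.mem_st.1 hj), ← e0, show (nw ι a μ).d = 1 from rfl,
      Nat.cast_one, one_mul]
    exact congrArg (_ + ·) (congrFun e2 j)
  · rw [pr, mix_neg _ _ hj, e0, mp_out fun x => hj (S.mem_st.2 x),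
      bv_out fun x => hj (S.mem_st.2 x)]

theorem wj_cw (w : (ι ⊕ (nw ι a μ).X) ⊕ Lk S (nw ι a μ).b → ℝ) (j : ι) :
    wj S a (bv S (nw ι a μ) o w) (mp S (nw ι a μ) o w) (cq S a 2 j) = w (Sum.inl (Sum.inl j)) := by
  rw [wj_two]
  split_ifs with hj
  · rw [mp_in (S.mem_st.1 hj), show (nw ι a μ).d = 1 from rfl, Nat.cast_one, one_mul,
      add_sub_cancel_left]
  · exact bv_out (s := nw ι a μ) (fun x => hj (S.mem_st.2 x)) w

theorem wj_em (w : (ι ⊕ (nw ι a μ).X) ⊕ Lk S (nw ι a μ).b → ℝ) :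
    wj S a (bv S (nw ι a μ) o w) (mp S (nw ι a μ) o w) ∘ em S a μ = w := by
  funext i
  rcases i with (j | j) | l
  exacts [wj_cw w j, j.elim, (wj_zero a _ _ _).trans (bv_link l w)]

theorem mix_em (hb : a ≠ b) (lam : ℝ) (w : (ι ⊕ (nw ι a μ).X) ⊕ Lk S (nw ι a μ).b → ℝ)
    (z : BI S.fc (0 : Fin 4) → ℝ) :
    mix ((jt S a lam).st (b, 0)) z (wj S a (bv S (nw ι a μ) o w) (mp S (nw ι a μ) o w)) ∘
        cq S a 0 = bv S (nw ι a μ) o (mix ((rf S (nw ι a μ) o).st b) (z ∘ em S a μ) w) ∧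
      mix ((jt S a lam).st (b, 0)) z (wj S a (bv S (nw ι a μ) o w) (mp S (nw ι a μ) o w)) ∘
        cq S a 2 = cw (mix ((rf S (nw ι a μ) o).st b) (z ∘ em S a μ) w) := by
  have e : ∀ c j, cq S a c j ∈ (jt S a lam).st (b, 0) ↔ j ∈ S.st b := fun c j => cq_st0 hb c j
  refine ⟨funext fun j => ?_, funext fun j => ?_⟩
  · rw [Function.comp, mix, wj_zero, if_congr (e 0 j) rfl rfl]
    rcases tri S a j with x | ⟨l, rfl⟩ | x
    · rw [if_neg fun y => hb.symm (mem_singleton.1 (x ▸ S.mem_st.1 y)), bv_pure (s := nw ι a μ) x,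
        bv_pure (s := nw ι a μ) x]
    · rw [bv_link (s := nw ι a μ) l, bv_link (s := nw ι a μ) l, mix]
      exact (if_congr (st_inr hb l) rfl rfl).symm
    · rw [bv_out (s := nw ι a μ) x, bv_out (s := nw ι a μ) x, mix, if_congr (st_inl j) rfl rfl,
        cq_out (fun y => x (S.mem_st.1 y)) 0 2]
      rfl
  · rw [Function.comp, mix, wj_cw, if_congr (e 2 j) rfl rfl, cw, mix, if_congr (st_inl j) rfl rfl]
    rfl

/-- the share on the refined system is the share on the joint system -/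
theorem shr_rf (h : S.Ok) {F : Finset V} (ha : a ∈ F) (hb : a ≠ b) {lam : ℝ} (hl : 1 ≤ lam)
    (P : (ι → ℝ) → (ι → ℝ) → Prop) (w : (ι ⊕ (nw ι a √lam).X) ⊕ Lk S (nw ι a √lam).b → ℝ) :
    shr (jt S a lam) (b2 F a) (b, 0) lam (fun x y => P (pr S a 0 2 x) (pr S a 0 2 y))
        (wj S a (bv S (nw ι a √lam) o w) (mp S (nw ι a √lam) o w)) =
      shr (rf S (nw ι a √lam) o) F b lam
        (fun x y => P (mp S (nw ι a √lam) o x) (mp S (nw ι a √lam) o y)) w := by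
  have hJ := ok_jt h a hl
  have key : ∀ (i : ι) (l : Lk S a), (jt S a lam).fc (cq S a 2 i) ≠ (jt S a lam).fc (cq S a 0 l.1) :=
    fun i l e => absurd ((cq_st 2 0 i).1 ((blow S 0).mem_st.2 (Eq.subset (a := (blow S 0).fc _)
      e.symm ((blow S 0).mem_st.1 ((cq_st 0 0 l.1).2 ⟨S.mem_st.2 l.2.1, rfl⟩))))).2 (by decide)
  refine Eq.trans ?_ (kf_image (S := rf S (nw ι a √lam) o) (T := jt S a lam) (v := (b, 0))
    (a' := fce (jt S a lam) (b2 F a)) (em_inj a √lam) ?_ √lam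
    (u' := wj S a (bv S (nw ι a √lam) o w) (mp S (nw ι a √lam) o w)) ?_ (fun z i _ => ?_) _)
  · unfold shr
    congr 2
    funext x
    congr 2
    obtain ⟨e0, e2⟩ := mix_em (o := o) hb lam w
      (wj S a (bv S (nw ι a √lam) o w) (mp S (nw ι a √lam) o w) - toR x)
    beta_reduce
    rw [cn, pr_of e0 e2, pr_of (funext (wj_zero a _ _)) (funext (wj_cw w)), Pi.sub_comp, wj_em]
    rfl
  · ext i
    rw [mem_inter, mem_image, mem_fce_b2 ha]
    constructor
    · rintro ⟨⟨j, hj, rfl | rfl⟩, x⟩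
      · have y := (cq_st0 hb 0 j).1 x
        by_cases u : a ∈ S.fc j
        · refine ⟨Sum.inr ⟨j, u, fun e => hb.symm (mem_singleton.1 (e ▸ S.mem_st.1 y))⟩,
            mem_inter.2 ⟨mem_fce.2 ((erase_subset _ _).trans (mem_fce.1 hj)), (st_inr hb _).2 y⟩,
            rfl⟩
        · exact ⟨Sum.inl (Sum.inl j), mem_inter.2 ⟨(fce_inl j).2 hj, (st_inl j).2 y⟩,
            cq_out (fun x => u (S.mem_st.1 x)) _ _⟩
      · exact ⟨Sum.inl (Sum.inl j), mem_inter.2 ⟨(fce_inl j).2 hj,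
          (st_inl j).2 ((cq_st0 hb 2 j).1 x)⟩, rfl⟩
    · rintro ⟨(j | j) | l, hj, rfl⟩
      · exact ⟨⟨j, (fce_inl j).1 (mem_inter.1 hj).1, Or.inr rfl⟩,
          (cq_st0 hb 2 j).2 ((st_inl j).1 (mem_inter.1 hj).2)⟩
      · exact j.elim
      · refine ⟨⟨l.1, mem_fce.2 fun v hv => ?_, Or.inl rfl⟩,
          (cq_st0 hb 0 _).2 ((st_inr hb l).1 (mem_inter.1 hj).2)⟩
        by_cases e : v = a
        exacts [e ▸ ha, mem_fce.1 (mem_inter.1 hj).1 (mem_erase.2 ⟨e, hv⟩)]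
  · rintro ((i | i) | i) - ((j | j) | j) -
    · exact P057LU.G_jt h 2 i j
    · exact j.elim
    · exact by_contra fun x => key i j (hJ.orth _ _ x).1
    · exact i.elim
    · exact i.elim
    · exact i.elim
    · exact by_contra fun x => key j i (hJ.orth _ _ x).1.symm
    · exact j.elim
    · exact G_cq0 h a lam _ _
  · obtain ⟨e0, e2⟩ := mix_em (o := o) hb lam w z
    rcases i with (j | j) | l
    · exact (p_cp h _ _ j).trans (congrArg (S.p · j) e2)
    · exact j.elim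
    · exact (p_cp h _ _ l.1).trans (congrArg (S.p · l.1) e0)

end ide

theorem den_all (h : S.Ok) (F : Finset V) {J : Type} (R : Finset J) (E : (ι → ℝ) → Prop)
    (Q : J → (ι → ℝ) → Prop) {ε : ℝ} (hε : ∀ j ∈ R, den S F (fun z => E z ∧ ¬ Q j z) ≤ ε) :
    den S F E - R.card * ε ≤ den S F fun z => E z ∧ ∀ j ∈ R, Q j z := by
  classical
  induction R using Finset.induction_on with
  | empty => simp
  | insert j R hj ih =>
    have h1 := ih fun k hk => hε k (mem_insert_of_mem hk)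
    have h2 := den_and (F := F) (E := fun z => E z ∧ ∀ j ∈ R, Q j z) h fun z => ¬ (E z ∧ ¬ Q j z)
    simp only [not_not] at h2
    rw [card_insert_of_notMem hj, Nat.cast_succ]
    refine le_trans (by linarith [hε j (mem_insert_self _ _)]) (h2.trans (den_mono h fun z hz =>
      ⟨hz.1.1, (forall_mem_insert _ _ _).2 ⟨by_contra fun x => hz.2 ⟨hz.1.1, x⟩, hz.1.2⟩⟩))

theorem bi_pr {F : Finset V} {a : V} (ha : a ∈ F) (lam : ℝ) {P : (ι → ℝ) → (ι → ℝ) → Prop}
    (hP : Bi (fce S F) P) :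
    Bi (fce (jt S a lam) (b2 F a)) fun x y => P (pr S a 0 2 x) (pr S a 0 2 y) :=
  fun _ _ _ _ x x' => by
    have : ∀ {u u' : BI S.fc (0 : Fin 4) → ℝ}, (∀ i ∈ fce (jt S a lam) (b2 F a), u i = u' i) →
        ∀ j ∈ fce S F, pr S a 0 2 u j = pr S a 0 2 u' j := fun e j hj => by
      simp only [pr, mix, Function.comp, e _ ((mem_fce_b2 ha lam).2 ⟨j, hj, Or.inl rfl⟩),
        e _ ((mem_fce_b2 ha lam).2 ⟨j, hj, Or.inr rfl⟩)]
    exact hP _ _ _ _ (this x) (this x')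

/-- the mean density of the new set -/
theorem step_den (h : S.Ok) (hc : S.Cen) {F R : Finset V} {a : V} (ha : a ∈ F) (hR : a ∉ R)
    {lam θ η δ β ε : ℝ} (hl : 1 ≤ lam) (hθ : 0 < θ) (hd : 1 + 1 / θ ≤ θ * lam) (hδ : 0 < δ)
    (hβ : 0 < β) (hm : ∀ M, Cls (jt S a lam) M → (jt S a lam).mass M ≤ 1 + η)
    (hm2 : ∀ b M, Cls (jt (jt S a lam) (b, 0) lam) M →
      (jt (jt S a lam) (b, 0) lam).mass M ≤ 1 + η)
    (hε : β * (η + 4 * Fintype.card ι * θ) + (δ / 2 * (1 + η) + η / δ) +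
      (η + 16 * Fintype.card ι * θ) ≤ β / 2 * ε)
    {P : V → (ι → ℝ) → (ι → ℝ) → Prop} (hP : ∀ b, Bi (fce S F) (P b)) (A : (ι → ℝ) → Prop)
    (hs : ∀ y, A (toR y) → ∀ b ∈ insert a R, β ≤ shr S F b lam (P b) (toR y)) :
    (β * den S F A - (η + 4 * Fintype.card ι * θ) - R.card * ε) * vl S.G (fce S {a}) ≤
      ∑' o, S.wt (fce S {a}) o * den (rf S (nw ι a √lam) o) F fun w =>
        (P a (bv S (nw ι a √lam) o w) (mp S (nw ι a √lam) o w) ∧ A (mp S (nw ι a √lam) o w)) ∧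
        ∀ b ∈ R, β / 2 ≤ shr (rf S (nw ι a √lam) o) F b lam
          (fun x y => P b (mp S (nw ι a √lam) o x) (mp S (nw ι a √lam) o y)) w := by
  have hJ := ok_jt h a hl
  have k1 := pairs_ge h hc ha hl hθ hd hm (hP a) A fun y hy => hs y hy a (mem_insert_self _ _)
  have k2 := den_all hJ (b2 F a) R
    (fun W => P a (W ∘ cq S a 0) (pr S a 0 2 W) ∧ A (pr S a 0 2 W))
    (fun b W => β / 2 ≤ shr (jt S a lam) (b2 F a) (b, 0) lam
      (fun x y => P b (pr S a 0 2 x) (pr S a 0 2 y)) W) (ε := ε) fun b hb =>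
    le_of_mul_le_mul_left ((drop_le h hc ha (ne_of_mem_of_not_mem hb hR).symm hl hθ hd hδ hβ.le hm
      (hm2 b) (hP b) fun W hW => ⟨by
        have := hW.1.2
        rw [← toR_pr] at this ⊢
        exact hs _ this b (mem_insert_of_mem hb), (not_le.1 hW.2).le⟩).trans hε) (half_pos hβ)
  have k3 := P057LU.unf V ι S F a lam (fun x y => (P a x y ∧ A y) ∧ ∀ b ∈ R, β / 2 ≤
    shr (jt S a lam) (b2 F a) (b, 0) lam (fun x y => P b (pr S a 0 2 x) (pr S a 0 2 y))
      (wj S a x y)) h hc ha hl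
  refine le_trans (mul_le_mul_of_nonneg_right (le_trans (by linarith) (k2.trans
    (den_mono hJ fun z hz => ⟨hz.1, fun b hb => (hz.2 b hb).trans_eq ?_⟩))) (vl_pos h.pd _).le)
    (k3.trans_eq (tsum_congr fun o => congrArg (_ * den _ F ·) (funext fun w => ?_)))
  · exact (on_shr hJ _ _ (bi_pr ha lam (hP b)) _ _ (wj_self ha lam _)).symm
  · refine propext (and_congr_right' (forall₂_congr fun b hb => ?_))
    rw [shr_rf h ha (ne_of_mem_of_not_mem hb hR).symm hl]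

end

end Vale.Agent.P057CR
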