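import Vale.Agent.P057CR.Shr

/-!
The share in one class survives the splitting of another class on average.
-/

set_option linter.all false
set_option synthInstance.maxSize 1024

open Matrix Finset
open scoped Real
open Vale.Agent.P267.H775 Vale.Agent.P057G Vale.Agent.P057MA Vale.Agent.P057HU
open Vale.Agent.P057T1 Vale.Agent.P057IV Vale.Agent.P057QP
open Vale.Agent.P057PI (dup sg)

namespace Vale.Agent.P057CR

noncomputable section

variable {V ι : Type} [Fintype V] [DecidableEq V] [Fintype ι] [DecidableEq ι] {S : MS V ι}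

theorem ln2_cps2 (h : S.Ok) (b : V) {lam : ℝ} (hl : 1 ≤ lam) (ρ : Finset ι)
    (Z : BI S.fc (0 : Fin 4) → ℝ) : ln2 (jt S b lam) (cps S b ![ρ, ∅, ρ, ∅]) Z =
      ln2 S ρ (Z ∘ cq S b 0) + lam * ln2 S (ρ ∩ S.st b) (Z ∘ cq S b 2) := by
  have hJ := ok_jt h b hl
  have k0 : cps S b ![ρ, ∅, ρ, ∅] ∩ (jt S b lam).st (b, 2) = _ := cps_st b _ 2
  have k1 : cps S b ![ρ, ∅, ρ, ∅] \ (jt S b lam).st (b, 2) = _ :=
    cps_del b (ρ := ![ρ, ∅, ρ, ∅]) (c := 2) (by decide) Subset.rfl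
  rw [P057T1.ln2_split hJ (hJ.sat_st (b, 2)), k0, k1, ln2_cq h,
    show Function.update ![ρ, ∅, ρ, ∅] 2 ∅ = ![ρ, ∅, ∅, ∅] by funext c; fin_cases c <;> rfl,
    cps_one, ln2_image (S := S) (cp_inj _ _ _) (fun i _ j _ => G_cq0 h b lam i j)
      fun z i _ => p_cp h _ z i, add_comm]
  simp only [Matrix.cons_val, Real.sq_sqrt (show (0 : ℝ) ≤ lam by linarith)]

theorem pos_sh (h : S.Ok) (hc : S.Cen) (b : V) (n : ℤ) (Z : BI S.fc (0 : Fin 4) → ℝ) (j : ι) :
    pos S (sh S b n Z ∘ cq S b 0) j =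
      pos S (Z ∘ cq S b 0) j + n * msk (S.st b) (pos S (Z ∘ cq S b 2)) j := by
  have e : sh S b n Z ∘ cq S b 0 =
      mix (S.st b) (Z ∘ cq S b 0 + (n : ℝ) • (Z ∘ cq S b 2)) (Z ∘ cq S b 0) := by
    funext i
    by_cases hi : i ∈ S.st b
    · simp only [Function.comp, sh_cq _ _ hi, mix_pos _ _ hi, Pi.add_apply, Pi.smul_apply,
        smul_eq_mul, zsmul_eq_mul]
    · simp only [Function.comp, sh_ne _ _ (Or.inr hi), mix_neg _ _ hi]
  have e2 : mix (S.st b) (Z ∘ cq S b 2) (Z ∘ cq S b 0) = Z ∘ cq S b 2 := by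
    funext i
    by_cases hi : i ∈ S.st b
    · rw [mix_pos _ _ hi]
    · rw [mix_neg _ _ hi, Function.comp, cq_out hi 0 2]; rfl
  rw [e]
  by_cases hj : j ∈ S.st b
  · have l := h.lin hc (S.mem_st.1 hj) (Z ∘ cq S b 0)
    have h1 := l.map_add (Z ∘ cq S b 0) ((n : ℝ) • (Z ∘ cq S b 2))
    have h2 := l.map_smul (n : ℝ) (Z ∘ cq S b 2)
    beta_reduce at h1 h2
    simp only [pos, Pi.sub_apply, h1, h2, e2, mix_self, mix_pos _ _ hj, msk_pos _ hj,
      Pi.add_apply, Pi.smul_apply, smul_eq_mul]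
    ring
  · simp only [pos, Pi.sub_apply, p_indep h fun a => hj (S.mem_st.2 a), mix_neg _ _ hj,
      msk_neg _ hj, mul_zero, add_zero]

theorem ln2_sh2 (h : S.Ok) (hc : S.Cen) (b : V) {lam δ : ℝ} (hl : 1 ≤ lam) (hδ : 0 < δ)
    (hd : 1 + 1 / δ ≤ δ * lam) (ρ : Finset ι) {n : ℤ} (hn : n ^ 2 ≤ 1)
    (Z : BI S.fc (0 : Fin 4) → ℝ) : ln2 (jt S b lam) (cps S b ![ρ, ∅, ρ, ∅]) (sh S b n Z) ≤
      (1 + δ) * ln2 (jt S b lam) (cps S b ![ρ, ∅, ρ, ∅]) Z := by
  have e : msk ρ (pos S (sh S b n Z ∘ cq S b 0)) = msk ρ (pos S (Z ∘ cq S b 0)) +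
      (n : ℝ) • msk (ρ ∩ S.st b) (pos S (Z ∘ cq S b 2)) := by
    funext j
    simp only [msk, pos_sh h hc, Pi.add_apply, Pi.smul_apply, smul_eq_mul, mem_inter]
    by_cases a : j ∈ ρ <;> simp [a]
  have e2 : sh S b n Z ∘ cq S b 2 = Z ∘ cq S b 2 :=
    funext fun j => sh_ne n Z (Or.inl (by decide))
  rw [ln2_cps2 h b hl, ln2_cps2 h b hl, e2, ln2_eq, e, ln2_eq ρ, ln2_eq]
  have a4 := qq_add_le' h.pd.posSemidef (msk ρ (pos S (Z ∘ cq S b 0)))
    ((n : ℝ) • msk (ρ ∩ S.st b) (pos S (Z ∘ cq S b 2))) hδ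
  rw [qq_smul] at a4
  have a5 : (n : ℝ) ^ 2 ≤ 1 := by exact_mod_cast hn
  have a6 := qq_nonneg h.pd.posSemidef (msk (ρ ∩ S.st b) (pos S (Z ∘ cq S b 2)))
  have a7 := mul_le_mul hd (mul_le_of_le_one_left a6 a5) (by positivity) (by positivity)
  nlinarith

theorem card_cps (b : V) {ρ : Fin 4 → Finset ι} {N : ℕ} (h : ∀ c, (ρ c).card ≤ N) :
    (cps S b ρ).card ≤ 4 * N :=
  (card_biUnion_le_card_mul _ _ _ fun c _ => card_image_le.trans (h c)).trans (by simp)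

theorem st_a4 (S : MS V ι) (b : V) : (blow S 0).sts (a4 {b}) = (blow S (0 : Fin 4)).st (b, 0) := by
  rw [a4, image_singleton, sts_single]

theorem cq_st0 {a b : V} (hb : a ≠ b) (c : Fin 4) (j : ι) :
    cq S a c j ∈ (blow S 0).st (b, 0) ↔ j ∈ S.st b := by
  rw [← st_a4, cq_sts (notMem_singleton.2 hb), sts_single]

/-- the shear in the class `a` on the copies in the class `b` -/
def sh2 {α : Type*} [AddCommGroup α] (S : MS V ι) (a b : V) (lam : ℝ) (n : ℤ)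
    (W : BI (jt S a lam).fc (0 : Fin 4) → α) (i : BI (jt S a lam).fc (0 : Fin 4)) : α :=
  if i = cq (jt S a lam) (b, 0) (i.1.2 (b, 0)) i.1.1 then
    sh S a n (W ∘ cq (jt S a lam) (b, 0) (i.1.2 (b, 0))) i.1.1 else W i

section sh2

variable {α : Type*} [AddCommGroup α] {a b : V} {lam : ℝ}

theorem sh2_cq (hb : a ≠ b) (n : ℤ) (W : BI (jt S a lam).fc (0 : Fin 4) → α) (c : Fin 4) :
    sh2 S a b lam n W ∘ cq (jt S a lam) (b, 0) c = sh S a n (W ∘ cq (jt S a lam) (b, 0) c) := by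
  funext k
  by_cases hk : k ∈ (jt S a lam).st (b, 0)
  · rw [Function.comp, sh2, cq_w hk]
    exact if_pos rfl
  · rw [Function.comp, sh2]
    refine (if_pos (cq_out hk _ _)).trans ?_
    change sh S a n _ k = _
    simp only [sh, Function.comp]
    rw [cq_out hk _ c]
    congr 1
    split_ifs with e
    · exact congrArg (n • W ·) (cq_out (S := jt S a lam)
        (fun x => hk (e.1 ▸ (cq_st0 hb 0 _).2 ((cq_st0 hb 2 _).1 x))) _ _)
    · rfl

theorem sh2_sh2 (hb : a ≠ b) (n m : ℤ) (W : BI (jt S a lam).fc (0 : Fin 4) → α) :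
    sh2 S a b lam n (sh2 S a b lam m W) = sh2 S a b lam (m + n) W := by
  funext i
  rw [sh2, sh2_cq hb, sh_sh, sh2.eq_1 S a b lam (m + n), sh2]
  split_ifs <;> rfl

theorem sh2_zero (W : BI (jt S a lam).fc (0 : Fin 4) → α) : sh2 S a b lam 0 W = W := by
  funext i
  rw [sh2, sh_zero]
  split_ifs with e
  exacts [congrArg W e.symm, rfl]

theorem toR_sh2 (n : ℤ) (W : BI (jt S a lam).fc (0 : Fin 4) → ℤ) :
    toR (sh2 S a b lam n W) = sh2 S a b lam n (toR W) := by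
  funext i
  rw [toR_apply, sh2, sh2]
  split_ifs
  exacts [congrFun (toR_sh a n _) _, rfl]

end sh2

theorem av_shear2 (h : S.Ok) (hc : S.Cen) {a b : V} (hb : a ≠ b) {lam μ δ η : ℝ} (hl : 1 ≤ lam)
    (hμ : 1 ≤ μ) (hδ : 0 < δ) (hd : 1 + 1 / δ ≤ δ * lam) {f : Finset ι} (hf : Cls S f)
    (hm : ∀ M, Cls (jt (jt S a lam) (b, 0) μ) M → (jt (jt S a lam) (b, 0) μ).mass M ≤ 1 + η)
    {n : ℤ} (hn : n ^ 2 ≤ 1) {F : (BI (jt S a lam).fc (0 : Fin 4) → ℤ) → ℝ} (F0 : ∀ W, 0 ≤ F W)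
    (F1 : ∀ W, F W ≤ 1) {q : Finset (BI S.fc (0 : Fin 4))} (hq : q = cps S a ![f, ∅, f, ∅]) :
    av (jt (jt S a lam) (b, 0) μ) (cps (jt S a lam) (b, 0) ![q, ∅, q, ∅])
        (fun W => F (sh2 S a b lam n W)) ≤
      av (jt (jt S a lam) (b, 0) μ) (cps (jt S a lam) (b, 0) ![q, ∅, q, ∅]) F +
        (η + 16 * Fintype.card ι * δ) := by
  have hJ := ok_jt h a hl
  have hK := ok_jt hJ (b, 0) hμ
  have c1 : Cls (jt S a lam) q := hq ▸ cls_cps a lam fun c => by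
    fin_cases c
    exacts [hf, cls_empty S, hf, cls_empty S]
  have c2 := cls_cps (S := jt S a lam) (b, 0) μ (ρ := ![q, ∅, q, ∅]) fun c => by
    fin_cases c
    exacts [c1, cls_empty _, c1, cls_empty _]
  refine (av_cmp hK (cen_jt (cen_jt hc a lam) _ μ) (c2.sat hK)
    ⟨sh2 S a b lam n, sh2 S a b lam (-n), fun W => by rw [sh2_sh2 hb, add_neg_cancel, sh2_zero],
      fun W => by rw [sh2_sh2 hb, neg_add_cancel, sh2_zero]⟩ hδ.le (hm _ c2)
    (fun z hz i hi => ?_) (fun z => ?_) F0 F1).trans ?_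
  · change sh2 S a b lam n z i = 0
    rw [sh2]
    split_ifs with e
    swap
    · exact hz i hi
    simp only [sh, Function.comp]
    rw [← e, hz i hi, zero_add]
    split_ifs with e1
    swap
    · rfl
    rw [hz, smul_zero]
    intro a2
    obtain ⟨c, k, hk, e2⟩ := mem_cps.1 a2
    have e3 : k = cq S a 2 i.1.1.1.1 := congrArg (fun x => x.1.1) e2
    have h1 : k ∈ q ∧ ∀ x ∈ q, x ∈ (![q, ∅, q, ∅] : Fin 4 → _) c := by
      fin_cases c
      exacts [⟨hk, fun _ x => x⟩, absurd hk (notMem_empty _), ⟨hk, fun _ x => x⟩,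
        absurd hk (notMem_empty _)]
    have h2 := mem_inter.2 ⟨hq ▸ h1.1, e3 ▸ (cq_st 2 2 _).2 ⟨e1.2, rfl⟩⟩
    rw [cps_st, e3, (cp_inj _ _ _).mem_finset_image] at h2
    refine hi (mem_cps.2 ⟨c, i.1.1, h1.2 _
      (hq ▸ mem_cps.2 ⟨0, _, (mem_inter.1 h2).1, e1.1.symm⟩), Eq.trans ?_ e.symm⟩)
    by_cases h3 : i.1.1 ∈ (jt S a lam).st (b, 0)
    · have h4 : k ∈ (jt S a lam).st (b, 0) :=
        e3 ▸ (cq_st0 hb 2 _).2 ((cq_st0 hb 0 _).1 (e1.1 ▸ h3))
      have h5 := cq_w h4 c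
      rw [e2, cq_w (e3 ▸ h4)] at h5
      rw [h5]
    · exact cq_out h3 _ _
  · change ln2 _ _ (toR (sh2 S a b lam n z)) ≤ _
    have e : q ∩ (jt S a lam).st (b, 0) = cps S a ![f ∩ S.st b, ∅, f ∩ S.st b, ∅] := by
      rw [hq]
      refine Eq.trans ?_ ((cps_inter ![f, ∅, f, ∅] (notMem_singleton.2 hb)).trans
        (congrArg _ (funext fun c => by
        rw [sts_single]
        fin_cases c
        exacts [rfl, empty_inter _, rfl, empty_inter _])))
      rw [st_a4]; rfl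
    rw [toR_sh2, ln2_cps2 hJ _ hμ, ln2_cps2 hJ _ hμ, sh2_cq hb, sh2_cq hb, e, hq]
    nlinarith [ln2_sh2 h hc a hl hδ hd f hn (toR z ∘ cq (jt S a lam) (b, 0) 0),
      mul_le_mul_of_nonneg_left (ln2_sh2 h hc a hl hδ hd (f ∩ S.st b) hn
        (toR z ∘ cq (jt S a lam) (b, 0) 2)) (zero_le_one.trans hμ)]
  · have h1 : q.card ≤ 4 * Fintype.card ι := hq ▸ card_cps a fun c => card_le_univ _
    have h2 : (cps (jt S a lam) (b, 0) ![q, ∅, q, ∅]).card ≤ 4 * (4 * Fintype.card ι) :=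
      card_cps _ fun c => by fin_cases c <;> simp [h1]
    have h3 : ((cps (jt S a lam) (b, 0) ![q, ∅, q, ∅]).card : ℝ) ≤ 16 * Fintype.card ι := by
      exact_mod_cast h2.trans (by omega)
    gcongr

/-- identification of fibres along an embedding of the labels -/
theorem kf_image {V' ι' : Type} [Fintype V'] [DecidableEq V'] [Fintype ι'] [DecidableEq ι']
    {T : MS V' ι'} {e : ι → ι'} (he : Function.Injective e) {b : V} {v : V'} {a : Finset ι}
    {a' : Finset ι'} (ha : a' ∩ T.st v = (a ∩ S.st b).image e) (σ : ℝ) {u : ι → ℝ} {u' : ι' → ℝ}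
    (hG : ∀ i ∈ a ∩ S.st b, ∀ j ∈ a ∩ S.st b, T.G (e i) (e j) = S.G i j)
    (hp : ∀ z, ∀ i ∈ a ∩ S.st b, T.p (mix (T.st v) z u') (e i) = S.p (mix (S.st b) (z ∘ e) u) i)
    (Φ : (ι → ℤ) → ℝ) :
    (∑' x, kf T v σ a' u' x * Φ (x ∘ e)) / vl (σ ^ 2 • T.G) (a' ∩ T.st v) =
      (∑' x, kf S b σ a u x * Φ x) / vl (σ ^ 2 • S.G) (a ∩ S.st b) := by
  have e1 : (nar T σ).sts {v} = T.st v := sts_single _
  have e2 : (nar S σ).sts {b} = S.st b := sts_single _
  have k := av_image (S := (nar S σ).frz {b} u) (S' := (nar T σ).frz {v} u') he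
    (fun i hi j hj => congrArg (σ ^ 2 * ·) (hG i hi j hj)) (fun z i hi => by
      rw [MS.frz_p_pos _ _ (e1 ▸ (mem_inter.1 (ha ▸ mem_image_of_mem e hi)).2),
        MS.frz_p_pos _ _ (e2 ▸ (mem_inter.1 hi).2), e1, e2]
      exact hp z i hi) Φ
  rw [← ha] at k
  exact k

theorem pr_cn {a b : V} (hb : a ≠ b) (lam : ℝ) (y x : BI S.fc (0 : Fin 4) → ℝ) :
    pr S a 0 2 (cn (jt S a lam) (b, 0) y x) = cn S b (pr S a 0 2 y) (pr S a 0 2 x) := by
  funext j
  have e : ∀ c, cq S a c j ∈ (jt S a lam).st (b, 0) ↔ j ∈ S.st b := fun c => cq_st0 hb c j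
  simp only [pr, cn, mix, Function.comp, e, Pi.sub_apply]
  split_ifs <;> ring

/-- the share drops rarely -/
theorem drop_le (h : S.Ok) (hc : S.Cen) {F : Finset V} {a b : V} (ha : a ∈ F) (hb : a ≠ b)
    {lam θ η δ β : ℝ} (hl : 1 ≤ lam) (hθ : 0 < θ) (hd : 1 + 1 / θ ≤ θ * lam) (hδ : 0 < δ)
    (hβ : 0 ≤ β) (hm : ∀ M, Cls (jt S a lam) M → (jt S a lam).mass M ≤ 1 + η)
    (hm2 : ∀ M, Cls (jt (jt S a lam) (b, 0) lam) M → (jt (jt S a lam) (b, 0) lam).mass M ≤ 1 + η)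
    {P : (ι → ℝ) → (ι → ℝ) → Prop} (hP : Bi (fce S F) P)
    {g : (BI S.fc (0 : Fin 4) → ℝ) → Prop} (hg : ∀ W, g (toR W) →
      β ≤ shr S F b lam P (pr S a 0 2 (toR W)) ∧ shr (jt S a lam) (b2 F a) (b, 0) lam
        (fun x y => P (pr S a 0 2 x) (pr S a 0 2 y)) (toR W) ≤ β / 2) :
    β / 2 * den (jt S a lam) (b2 F a) g ≤ β * (η + 4 * Fintype.card ι * θ) +
      (δ / 2 * (1 + η) + η / δ) + (η + 16 * Fintype.card ι * θ) := by
  have hJ := ok_jt h a hl
  have cJ := cen_jt hc a lam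
  have hq := fce_b2 (S := S) ha lam
  set q := fce (jt S a lam) (b2 F a) with hq0
  have e1 : (jt S a lam).sts {(a, 2)} = (blow S 0).st (a, 2) := sts_single _
  have hr : q \ (jt S a lam).sts {(a, 2)} = (fce S F).image (cq S a 0) := by
    rw [hq, e1, cps_del a (ρ := ![fce S F, ∅, fce S F, ∅]) (c := 2) (by decide) Subset.rfl,
      ← cps_one]
    congr 1
    funext c; fin_cases c <;> rfl
  let γ : (BI S.fc (0 : Fin 4) → ℤ) → (BI S.fc (0 : Fin 4) → ℤ) → ℝ := fun y x =>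
    gm S b P (y ∘ cq S a 0) (x ∘ cq S a 0)
  have hγ : Raw (jt S a lam) (b, 0) (q \ (jt S a lam).sts {(a, 2)}) γ := fun _ _ _ _ x x' =>
    raw_gm hP _ _ _ _ (fun j hj => x _ (hr ▸ mem_image_of_mem _ hj))
      fun j hj hj' => x' _ (hr ▸ mem_image_of_mem _ hj) ((cq_st0 hb 0 j).2 hj')
  have hP' : Bi q fun x y => P (pr S a 0 2 x) (pr S a 0 2 y) := fun _ _ _ _ x x' => by
    have : ∀ {u u' : BI S.fc (0 : Fin 4) → ℝ}, (∀ i ∈ q, u i = u' i) →
        ∀ j ∈ fce S F, pr S a 0 2 u j = pr S a 0 2 u' j := fun e j hj => by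
      simp only [pr, mix, Function.comp, e _ (hq ▸ mem_cps.2 ⟨0, j, hj, rfl⟩),
        e _ (hq ▸ mem_cps.2 ⟨2, j, hj, rfl⟩)]
    exact hP _ _ _ _ (this x) (this x')
  have k1 := av_shear h hc a hl hθ hd (cls_fce S F) hm (n := 1) (by norm_num)
    (F := fun W => ind (g (toR (sh S a (-1) W)))) (fun _ => ind_nonneg _) fun _ => ind_le _
  simp only [sh_sh, add_neg_cancel, sh_zero] at k1
  rw [← hq] at k1
  obtain ⟨C, hC⟩ := kn_bdd hJ (b, 0) hl (γ := γ) (fun _ _ => abs_ind _)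
    (q \ (jt S a lam).sts {(a, 2)})
  have k2 : av (jt S a lam) q (fun W => β * ind (g (toR (sh S a (-1) W)))) ≤ _ :=
    av_mono hJ q (C := β) (C' := C) (fun W => by
      rw [abs_mul, abs_of_nonneg hβ]; exact mul_le_of_le_one_right hβ (abs_ind _))
    (F' := fun W => kn (jt S a lam) (b, 0) lam γ (q \ (jt S a lam).sts {(a, 2)}) W *
      ind (g (toR (sh S a (-1) W))))
    (fun W => by
      rw [abs_mul]; exact (mul_le_of_le_one_right (abs_nonneg _) (abs_ind _)).trans (hC W))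
    fun W => by
      by_cases x : g (toR (sh S a (-1) W))
      · refine mul_le_mul_of_nonneg_right ((hg _ x).1.trans_eq ?_) (ind_nonneg _)
        rw [toR_sh, pr_sh]
        refine (kf_image (T := jt S a lam) (cp_inj _ _ _) ?_ _ (fun i _ j _ => G_cq0 h a lam i j)
          (fun z i _ => ?_) (gm S b P (W ∘ cq S a 0))).symm
        · rw [hr]
          ext i
          simp only [mem_inter, mem_image]
          constructor
          · rintro ⟨⟨j, hj, rfl⟩, x⟩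
            exact ⟨j, ⟨hj, (cq_st0 hb 0 j).1 x⟩, rfl⟩
          · rintro ⟨j, hj, rfl⟩
            exact ⟨⟨j, hj.1, rfl⟩, (cq_st0 hb 0 j).2 hj.2⟩
        · refine (p_cp h _ _ i).trans (congrArg (S.p · i) (funext fun j => ?_))
          have := cq_st0 (S := S) hb 0 j
          exact if_congr this rfl rfl
      · rw [ind_neg x, mul_zero, mul_zero]
  rw [av_mul, av_kn hJ (b, 0) hl sdiff_subset (γ := γ) (fun _ _ => abs_ind _) hγ
    fun _ => abs_ind _] at k2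
  have k3 := core hJ cJ (b, 0) hl (cls_fce _ (b2 F a)) (L := {(a, 2)})
    (notMem_singleton.2 fun x => absurd (congrArg Prod.snd x) (show (0 : Fin 4) ≠ 2 by decide)) hδ hm2 (γ := γ)
    (fun _ _ => ind_nonneg _) (fun _ _ => ind_le _) hγ
    (e := fun W => ind (g (toR (sh S a (-1) W)))) fun _ => abs_ind _
  have k4 := av_shear2 h hc hb hl hl hθ hd (cls_fce S F) hm2 (n := -1) (by norm_num)
    (F := fun W => γ (sh S a 1 (W ∘ cq (jt S a lam) (b, 0) 0))
      (sh S a 1 (W ∘ cq (jt S a lam) (b, 0) 2)) * ind (g (toR (W ∘ cq (jt S a lam) (b, 0) 0))))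
    (fun _ => mul_nonneg (ind_nonneg _) (ind_nonneg _))
    (fun _ => mul_le_one₀ (ind_le _) (ind_nonneg _) (ind_le _)) hq
  simp only [sh2_cq hb, sh_sh, neg_add_cancel, sh_zero] at k4
  have e2 : ∀ y x, γ (sh S a 1 y) (sh S a 1 x) =
      gm (jt S a lam) (b, 0) (fun x y => P (pr S a 0 2 x) (pr S a 0 2 y)) y x := fun y x => by
    simp only [γ, gm, sh_one, toR_pr, pr_cn hb]
  simp only [e2] at k4
  rw [← av_kn hJ (b, 0) hl Subset.rfl
    (γ := gm (jt S a lam) (b, 0) fun x y => P (pr S a 0 2 x) (pr S a 0 2 y))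
    (fun _ _ => abs_ind _) (raw_gm hP') (e := fun W => ind (g (toR W))) fun _ => abs_ind _] at k4
  obtain ⟨C', hC'⟩ := kn_bdd hJ (b, 0) hl
    (γ := gm (jt S a lam) (b, 0) fun x y => P (pr S a 0 2 x) (pr S a 0 2 y))
    (fun _ _ => abs_ind _) q
  have k5 := av_mono hJ q (C := C') (C' := β / 2) (fun W => by
      rw [abs_mul]; exact (mul_le_of_le_one_right (abs_nonneg _) (abs_ind (g (toR W)))).trans (hC' W))
    (F' := fun W => β / 2 * ind (g (toR W))) (fun W => by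
      rw [abs_mul, abs_of_nonneg (by linarith)]
      exact mul_le_of_le_one_right (by linarith) (abs_ind _)) fun W => by
      by_cases x : g (toR W)
      · exact mul_le_mul_of_nonneg_right (hg _ x).2 (ind_nonneg _)
      · rw [ind_neg x, mul_zero, mul_zero]
  rw [av_mul] at k5
  have k6 := (k2.trans k3).trans (add_le_add (k4.trans (add_le_add k5 le_rfl)) le_rfl)
  have k7 := mul_le_mul_of_nonneg_left k1 hβ
  change β / 2 * av (jt S a lam) q (fun W => ind (g (toR W))) ≤ _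
  linarith

end

end Vale.Agent.P057CR
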